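import Crest.Agent.R300.U.Calc

/-!
# Row 300, machine side: from pseudo-expectations on the tail to pseudo-expectations on words
-/

set_option autoImplicit false
set_option linter.dupNamespace false

namespace Crest.Agent.R300.Dec

open Crest.Agent.R300U

/-- the word with known prefix `w` and tail `z` -/
def glue {n : ℕ} (w : List Bool) (z : Fin (n - w.length) → Bool) : Fin n → Bool :=
  fun i => if h : (i : ℕ) < w.length then w.getD i false else z ⟨i - w.length, by omega⟩

/-- tail part of a set of positions -/
def tailSet {n : ℕ} (w : List Bool) (S : Finset (Fin n)) : Finset (Fin (n - w.length)) :=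
  Finset.univ.filter (fun j => (⟨(j : ℕ) + w.length, by omega⟩ : Fin n) ∈ S)

theorem card_tailSet_le {n : ℕ} (w : List Bool) (S : Finset (Fin n)) :
    (tailSet w S).card ≤ S.card := by
  refine Finset.card_le_card_of_injOn (fun j => (⟨(j : ℕ) + w.length, by omega⟩ : Fin n)) ?_ ?_
  · intro j hj
    simpa [tailSet] using hj
  · intro j _ j' _ h
    simp only [Fin.mk.injEq] at h
    exact Fin.ext (by omega)

theorem mono_glue {n : ℕ} (w : List Bool) (S : Finset (Fin n)) (z : Fin (n - w.length) → Bool) :
    (mono S : R n) (glue w z) =
      if (∀ i ∈ S, (i : ℕ) < w.length → w.getD i false = true) then (mono (tailSet w S) : R _) z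
        else 0 := by
  unfold mono
  by_cases h1 : ∀ i ∈ S, (i : ℕ) < w.length → w.getD i false = true
  · rw [if_pos h1]
    congr 1
    rw [eq_iff_iff]
    constructor
    · intro h j hj
      have hj' : (⟨(j : ℕ) + w.length, by omega⟩ : Fin n) ∈ S := by simpa [tailSet] using hj
      have h2 := h _ hj'
      unfold glue at h2
      rw [dif_neg (by simp)] at h2
      rw [← h2]
      congr 1
      exact Fin.ext (by simp)
    · intro h i hi
      unfold glue
      by_cases hiw : (i : ℕ) < w.length
      · rw [dif_pos hiw]; exact h1 i hi hiw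
      · rw [dif_neg hiw]
        apply h
        simp only [tailSet, Finset.mem_filter, Finset.mem_univ, true_and]
        have : (⟨(i : ℕ) - w.length + w.length, by omega⟩ : Fin n) = i := Fin.ext (by simp; omega)
        rw [this]; exact hi
  · rw [if_neg h1]
    rw [if_neg]
    intro h
    apply h1
    intro i hi hiw
    have := h i hi
    unfold glue at this
    rw [dif_pos hiw] at this
    exact this

theorem Bd_glue {n d : ℕ} {c : ℝ} (w : List Bool) {P : R n} (hP : Bd d c P) :
    Bd d c (fun z : Fin (n - w.length) → Bool => P (glue w z)) := by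
  obtain ⟨a, h1, h2, h3⟩ := hP
  have e : (fun z : Fin (n - w.length) → Bool => P (glue w z)) =
      ∑ S, (fun z : Fin (n - w.length) → Bool => a S * (mono S : R n) (glue w z)) := by
    funext z
    rw [h3, Finset.sum_apply, Finset.sum_apply]
    rfl
  rw [e]
  refine (Bd.sum Finset.univ (fun S => ‖a S‖) _ (fun S _ => ?_)).mono_mass h2
  by_cases hS : d < S.card
  · have : (fun z : Fin (n - w.length) → Bool => a S * (mono S : R n) (glue w z)) = 0 := by
      funext z
      rw [h1 S hS, zero_mul]; rfl
    rw [this]
    exact Bd.zero (norm_nonneg _)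
  · by_cases h4 : (∀ i ∈ S, (i : ℕ) < w.length → w.getD i false = true)
    · have : (fun z : Fin (n - w.length) → Bool => a S * (mono S : R n) (glue w z)) =
          a S • (mono (tailSet w S) : R _) := by
        funext z
        rw [mono_glue, if_pos h4]
        rfl
      rw [this]
      exact Bd.smul_mono ((card_tailSet_le w S).trans (not_lt.mp hS)) _
    · have : (fun z : Fin (n - w.length) → Bool => a S * (mono S : R n) (glue w z)) = 0 := by
        funext z
        rw [mono_glue, if_neg h4, mul_zero]; rfl
      rw [this]
      exact Bd.zero (norm_nonneg _)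

/-- composition with `glue` as a linear map -/
noncomputable def glueL {n : ℕ} (w : List Bool) : R n →ₗ[ℂ] R (n - w.length) where
  toFun f := fun z => f (glue w z)
  map_add' _ _ := rfl
  map_smul' _ _ := rfl

/-- a pseudo-expectation on the tail gives a pseudo-expectation on words -/
noncomputable def liftPE {n D : ℕ} (w : List Bool) (E : PE (n - w.length) D) : PE n D where
  L := E.L ∘ₗ glueL w
  one := E.one
  herm f := E.herm (glueL w f)
  pos _ _ hP := E.pos _ _ (Bd_glue w hP)

theorem liftPE_L {n D : ℕ} (w : List Bool) (E : PE (n - w.length) D) (f : R n) :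
    (liftPE w E).L f = E.L (fun z => f (glue w z)) := rfl

theorem exists_lift {n D : ℕ} (w : List Bool) (_hw : w.length ≤ n) (E : PE (n - w.length) D) :
    ∃ E' : PE n D, ∀ f : R300U.R n, E'.L f = E.L (fun z => f (glue w z)) :=
  ⟨liftPE w E, fun _ => rfl⟩

theorem xv_glue {n : ℕ} (w : List Bool) (hw : w.length ≤ n) {u : ℕ} (hu : u < w.length)
    (z : Fin (n - w.length) → Bool) :
    (xv u : R n) (glue w z) = if w.getD u false = true then 1 else 0 := by
  unfold xv
  rw [dif_pos (by omega)]
  unfold glue
  rw [dif_pos hu]

theorem prefix_lift {n D : ℕ} (w : List Bool) (hw : w.length ≤ n) (E : PE (n - w.length) D)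
    (E' : PE n D) (hE' : ∀ f : R300U.R n, E'.L f = E.L (fun z => f (glue w z)))
    (x : Fin n → Bool) (hx : ∀ i : Fin n, (i : ℕ) < w.length → w.getD i false = x i) :
    Prefix E' x w.length := by
  intro u hu
  have h0 : (fun z : Fin (n - w.length) → Bool =>
      (star (dev x (xv u : R n)) * dev x (xv u)) (glue w z)) = 0 := by
    funext z
    have h1 : (dev x (xv u : R n)) (glue w z) = 0 := by
      rw [dev_apply, xv_glue w hw hu]
      unfold xv
      rw [dif_pos (by omega), hx ⟨u, by omega⟩ hu, sub_self]
    show star ((dev x (xv u : R n)) (glue w z)) * (dev x (xv u : R n)) (glue w z) = 0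
    rw [h1, mul_zero]
  unfold PE.N
  rw [hE', h0, map_zero]
  simp

theorem ofFn_glue {n : ℕ} (w : List Bool) (hw : w.length ≤ n) (z : Fin (n - w.length) → Bool) :
    List.ofFn (glue w z) = w ++ List.ofFn z := by
  refine List.ext_getElem ?_ fun i h1 h2 => ?_
  · rw [List.length_ofFn, List.length_append, List.length_ofFn]; omega
  · rw [List.getElem_ofFn]
    unfold glue
    by_cases h : i < w.length
    · rw [dif_pos h, List.getElem_append_left h]
      rw [List.getD_eq_getElem _ _ h]
    · rw [dif_neg h, List.getElem_append_right (by omega), List.getElem_ofFn]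

end Crest.Agent.R300.Dec
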