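import Mathlib

/-!
# Row 300, machine side: small numeric facts
-/

set_option autoImplicit false

namespace Crest.Agent.R300.Dec

theorem two_pow_log_le_cast {m : ℕ} (hm : 1 ≤ m) : (2 : ℝ) ^ Nat.log 2 m ≤ m := by
  exact_mod_cast Nat.pow_log_le_self 2 (by omega)

theorem delta_le {n N m K : ℕ} (hn : 1 ≤ n) (hN : N ≤ n) (hm : 1 ≤ m)
    (h : (n + 1) ^ (64 * K) ≤ 2 ^ Nat.log 2 m) (hL : 10000 ≤ Nat.log 2 m) :
    2 * (1 / (m : ℝ)) * 4 ^ (2 * K) * ((N : ℝ) + 1) ^ (2 * (2 * K)) ≤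
      ((1 / 2 : ℝ) ^ (Nat.log 2 m / 8)) ^ 2 := by
  set L := Nat.log 2 m with hLdef
  have hm' : (2 : ℝ) ^ L ≤ m := two_pow_log_le_cast hm
  have hmpos : (0 : ℝ) < m := by positivity
  -- the natural number inequality
  have key : 2 * (n + 1) ^ (8 * K) * 2 ^ (2 * (L / 8)) ≤ 2 ^ L := by
    refine le_of_not_gt fun hlt => ?_
    have h1 : (2 ^ L) ^ 8 < (2 * (n + 1) ^ (8 * K) * 2 ^ (2 * (L / 8))) ^ 8 :=
      Nat.pow_lt_pow_left hlt (by norm_num)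
    have h2 : (2 * (n + 1) ^ (8 * K) * 2 ^ (2 * (L / 8))) ^ 8 =
        2 ^ 8 * (n + 1) ^ (64 * K) * 2 ^ (16 * (L / 8)) := by
      have e1 : ((n + 1) ^ (8 * K)) ^ 8 = (n + 1) ^ (64 * K) := by
        rw [← pow_mul]; congr 1; ring
      have e2 : (2 ^ (2 * (L / 8))) ^ 8 = 2 ^ (16 * (L / 8)) := by
        rw [← pow_mul]; congr 1; ring
      rw [mul_pow, mul_pow, e1, e2]
    have h3 : 2 ^ 8 * (n + 1) ^ (64 * K) * 2 ^ (16 * (L / 8)) ≤ 2 ^ 8 * 2 ^ L * 2 ^ (2 * L) :=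
      Nat.mul_le_mul (Nat.mul_le_mul_left _ h) (Nat.pow_le_pow_right (by norm_num) (by omega))
    have h4 : 2 ^ 8 * 2 ^ L * 2 ^ (2 * L) ≤ (2 ^ L) ^ 8 := by
      rw [← pow_add, ← pow_add, ← pow_mul]
      exact Nat.pow_le_pow_right (by norm_num) (by omega)
    rw [h2] at h1
    exact absurd (h1.trans_le (h3.trans h4)) (lt_irrefl _)
  have key' : 2 * ((n : ℝ) + 1) ^ (8 * K) * 2 ^ (2 * (L / 8)) ≤ 2 ^ L := by exact_mod_cast key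
  have h4K : (4 : ℝ) ^ (2 * K) ≤ ((n : ℝ) + 1) ^ (4 * K) := by
    have e1 : (4 : ℝ) ^ (2 * K) = 2 ^ (4 * K) := by
      rw [show (4 : ℝ) = 2 ^ 2 by norm_num, ← pow_mul]
      congr 1
      ring
    rw [e1]
    have : (1 : ℝ) ≤ n := by exact_mod_cast hn
    exact pow_le_pow_left₀ (by norm_num) (by linarith) _
  have hNK : ((N : ℝ) + 1) ^ (2 * (2 * K)) ≤ ((n : ℝ) + 1) ^ (4 * K) := by
    have e : 2 * (2 * K) = 4 * K := by ring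
    rw [e]
    have : (N : ℝ) ≤ n := by exact_mod_cast hN
    exact pow_le_pow_left₀ (by positivity) (by linarith) _
  have hprod : (4 : ℝ) ^ (2 * K) * ((N : ℝ) + 1) ^ (2 * (2 * K)) ≤ ((n : ℝ) + 1) ^ (8 * K) := by
    have e : ((n : ℝ) + 1) ^ (8 * K) = ((n : ℝ) + 1) ^ (4 * K) * ((n : ℝ) + 1) ^ (4 * K) := by
      rw [← pow_add]; congr 1; ring
    rw [e]
    exact mul_le_mul h4K hNK (by positivity) (by positivity)
  have eb : ((1 / 2 : ℝ) ^ (L / 8)) ^ 2 = 1 / 2 ^ (2 * (L / 8)) := by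
    rw [one_div, inv_pow, inv_pow, ← pow_mul, mul_comm, one_div]
  rw [eb, le_div_iff₀ (by positivity)]
  have e2 : 2 * (1 / (m : ℝ)) * 4 ^ (2 * K) * ((N : ℝ) + 1) ^ (2 * (2 * K)) * 2 ^ (2 * (L / 8)) =
      (2 * ((4 : ℝ) ^ (2 * K) * ((N : ℝ) + 1) ^ (2 * (2 * K))) * 2 ^ (2 * (L / 8))) / m := by
    field_simp
  rw [e2, div_le_one hmpos]
  calc 2 * ((4 : ℝ) ^ (2 * K) * ((N : ℝ) + 1) ^ (2 * (2 * K))) * 2 ^ (2 * (L / 8))
      ≤ 2 * ((n : ℝ) + 1) ^ (8 * K) * 2 ^ (2 * (L / 8)) := by gcongr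
    _ ≤ 2 ^ L := key'
    _ ≤ m := hm'

theorem three_div_le {m : ℕ} (hL : 10000 ≤ Nat.log 2 m) : 3 / (m : ℝ) ≤ 1 / 4 := by
  have hm : 1 ≤ m := by
    by_contra h
    have : m = 0 := by omega
    subst this
    simp at hL
  have h1 : (2 : ℝ) ^ Nat.log 2 m ≤ m := two_pow_log_le_cast hm
  have h2 : (2 : ℝ) ^ 4 ≤ 2 ^ Nat.log 2 m := pow_le_pow_right₀ (by norm_num) (by omega)
  have h3 : (16 : ℝ) ≤ m := by linarith
  rw [div_le_iff₀ (by linarith)]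
  linarith

theorem eight_beta_le {L : ℕ} (hL : 10000 ≤ L) :
    8 * (1 / 2 : ℝ) ^ (L / 8) ≤ (1 / 2) ^ (L / 9) := by
  have e : (8 : ℝ) = (1 / 2) ^ (-3 : ℤ) := by norm_num
  have h : (1 / 2 : ℝ) ^ (L / 8) = (1 / 2) ^ (3 : ℕ) * (1 / 2) ^ (L / 8 - 3) := by
    rw [← pow_add]; congr 1; omega
  rw [h]
  have h2 : (1 / 2 : ℝ) ^ (L / 8 - 3) ≤ (1 / 2) ^ (L / 9) :=
    pow_le_pow_of_le_one (by norm_num) (by norm_num) (by omega)
  linarith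

end Crest.Agent.R300.Dec
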