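import Crest.Agent.R300.Dec.Prog
import Crest.Agent.R300.Dec.MaskSet
import Crest.Agent.R300.Dec.Lift
import Crest.Agent.R300.Dec.Num

/-!
# Row 300, machine side: the coefficients of a data constraint as a function of sets
-/

set_option autoImplicit false
set_option linter.dupNamespace false

namespace Crest.Agent.R300.Dec

/-- collect the coefficients of equal index -/
theorem sum_collect {α ι : Type*} [Fintype ι] [DecidableEq ι] (P : List α) (g : α → ι) (c : α → ℝ)
    (F : ι → ℝ) :
    ∑ S, (P.map fun u => if g u = S then c u else 0).sum * F S = (P.map fun u => c u * F (g u)).sum := by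
  induction P with
  | nil => simp
  | cons u P ih =>
    simp only [List.map_cons, List.sum_cons, add_mul, Finset.sum_add_distrib, ih]
    congr 1
    simp [ite_mul]

theorem sum_collect₂ {α ι : Type*} [Fintype ι] [DecidableEq ι] (P : List α) (g : α → ι)
    (c : α → ℝ) (F : ι → ι → ℝ) :
    ∑ S, ∑ T, (P.map fun u => if g u = S then c u else 0).sum *
        (P.map fun u => if g u = T then c u else 0).sum * F S T =
      (P.map fun u => (P.map fun v => c u * c v * F (g u) (g v)).sum).sum := by
  have h1 : ∀ S, ∑ T, (P.map fun u => if g u = S then c u else 0).sum *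
        (P.map fun u => if g u = T then c u else 0).sum * F S T =
      (P.map fun u => if g u = S then c u else 0).sum * (P.map fun v => c v * F S (g v)).sum := by
    intro S
    rw [← sum_collect P g c (F S), Finset.mul_sum]
    exact Finset.sum_congr rfl fun T _ => by ring
  rw [Finset.sum_congr rfl fun S _ => h1 S, sum_collect P g c]
  congr 1
  refine List.map_congr_left fun u _ => ?_
  rw [← List.sum_map_mul_left]
  congr 1
  exact List.map_congr_left fun v _ => by ring

theorem sum_collect_complex {α ι : Type*} [Fintype ι] [DecidableEq ι] (P : List α) (g : α → ι)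
    (c : α → ℝ) (F : ι → ℂ) :
    ∑ S, (((P.map fun u => if g u = S then c u else 0).sum : ℝ) : ℂ) * F S =
      (P.map fun u => (c u : ℂ) * F (g u)).sum := by
  induction P with
  | nil => simp
  | cons u P ih =>
    simp only [List.map_cons, List.sum_cons, Complex.ofReal_add, add_mul, Finset.sum_add_distrib, ih]
    congr 1
    rw [Finset.sum_eq_single (g u)]
    · simp
    · intro S _ h; simp [h.symm]
    · simp

/-- the coefficient function of a list of terms -/
noncomputable def dvOf (N : ℕ) (P : List (List Bool × ℚ)) (S : Finset (Fin N)) : ℝ :=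
  (P.map fun u => if (mset u.1 : Finset (Fin N)) = S then (u.2 : ℝ) else 0).sum

theorem dvOf_eq_zero {N K : ℕ} {P : List (List Bool × ℚ)}
    (hP : ∀ u ∈ P, u.1.length = N ∧ u.1.count true ≤ K) (S : Finset (Fin N)) (hS : K < S.card) :
    dvOf N P S = 0 := by
  unfold dvOf
  apply List.sum_eq_zero
  intro y hy
  rw [List.mem_map] at hy
  obtain ⟨u, hu, rfl⟩ := hy
  rw [if_neg]
  intro h
  have := card_mset (N := N) (hP u hu).1
  rw [h] at this
  have := (hP u hu).2
  omega

theorem sum_dvOf_mono {N : ℕ} {P : List (List Bool × ℚ)} (hP : ∀ u ∈ P, u.1.length = N)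
    (z : Fin N → Bool) :
    ∑ S, ((dvOf N P S : ℝ) : ℂ) * (R300U.mono S : R300U.R N) z = ((evalT P (List.ofFn z) : ℝ) : ℂ) := by
  unfold dvOf
  rw [sum_collect_complex P (fun u => (mset u.1 : Finset (Fin N))) (fun u => (u.2 : ℝ))]
  unfold evalT
  have : ∀ Q : List (List Bool × ℚ), (∀ u ∈ Q, u.1.length = N) →
      (Q.map fun u => ((u.2 : ℝ) : ℂ) * (R300U.mono (mset u.1 : Finset (Fin N)) : R300U.R N) z).sum =
      (((Q.map fun u => (u.2 : ℝ) * (if hit u.1 (List.ofFn z) = true then 1 else 0)).sum : ℝ) : ℂ) := by
    intro Q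
    induction Q with
    | nil => intro _; simp
    | cons u Q ih =>
      intro hQ
      rw [List.map_cons, List.sum_cons, List.map_cons, List.sum_cons,
        ih fun v hv => hQ v (List.mem_cons_of_mem _ hv), mono_mset (hQ u List.mem_cons_self)]
      push_cast
      congr 2
      split_ifs <;> simp
  exact this P hP

theorem sum_dvOf₂ {N : ℕ} (P : List (List Bool × ℚ)) (μ : Finset (Fin N) → ℝ) :
    ∑ S, ∑ T, dvOf N P S * dvOf N P T * μ (S ∪ T) =
      (P.map fun u => (P.map fun v => (u.2 : ℝ) * v.2 * μ (mset u.1 ∪ mset v.1)).sum).sum := by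
  unfold dvOf
  exact sum_collect₂ P (fun u => (mset u.1 : Finset (Fin N))) (fun u => (u.2 : ℝ))
    (fun S T => μ (S ∪ T))

/-- shape of the terms -/
theorem terms_shape {a b n K : ℕ} {w J : List Bool} {th : ℚ} (hw : w.length ≤ n) :
    ∀ u ∈ terms a b n K w J th, u.1.length = n - w.length ∧ u.1.count true ≤ K := by
  intro u hu
  unfold terms at hu
  rcases List.mem_cons.1 hu with rfl | hu
  · refine ⟨by simp, ?_⟩
    have : (List.replicate (n - w.length) false).count true = 0 := by
      rw [List.count_eq_zero]
      intro h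
      exact absurd (List.eq_of_mem_replicate h) (by decide)
    simp only [this]
    omega
  · rw [List.mem_map] at hu
    obtain ⟨S, hS, rfl⟩ := hu
    rw [List.mem_filter, mem_masks] at hS
    refine ⟨by simp only [List.length_drop]; omega, ?_⟩
    exact (List.Sublist.count_le _ (List.drop_sublist _ _)).trans hS.1.2

/-- the trace moment after substitution of the prefix -/
theorem TT_glue_sub {a b n K : ℕ} (hab : a ≤ b) (hb : 0 < b) {w : List Bool} (hw : w.length ≤ n)
    (th : ℚ) {A : Finset ℕ} (hA : ∀ j ∈ A, j < n) (hK : A.card ≤ K)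
    (z : Fin (n - w.length) → Bool) :
    (((R300U.TT ((a : ℝ) / (b : ℝ)) A (glue w z) : ℝ) - th : ℝ) : ℂ) =
      ∑ S, ((dvOf (n - w.length) (terms a b n K w (maskOf n A) th) S : ℝ) : ℂ) *
        (R300U.mono S : R300U.R (n - w.length)) z := by
  rw [sum_dvOf_mono (fun u hu => (terms_shape hw u hu).1), TT_eq _ hA, ofFn_glue w hw,
    evalT_terms hab hb th (by rw [List.length_ofFn]; omega) (length_maskOf n A)
      (by rw [count_maskOf hA]; exact hK)]

end Crest.Agent.R300.Dec
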