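import Crest.Agent.R300.Dec.Mask
import Crest.Agent.R300.U.Defs

/-!
# Row 300, machine side: coefficients of the trace moments

`hit J y`: all positions of the mask `J` carry the letter `true` in `y`.
`Ec a c S J` is the integer `(a + c) ^ |S| * P(J | S)`: the (scaled) probability, under retention
`a / (a + c)`, that the positions `S` of the source are exactly the positions `J` of the trace.
-/

set_option autoImplicit false
set_option linter.dupNamespace false

namespace Crest.Agent.R300.Dec

open Crest.Agent.Lib.PT Crest.FinProb Crest.TraceRecon

/-- all positions of `J` carry a `true` in `y` (`y` is extended by `false`) -/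
def hit : List Bool → List Bool → Bool
  | [], _ => true
  | j :: J, y => (!j || y.headD false) && hit J y.tail

@[simp] theorem hit_nil (y : List Bool) : hit [] y = true := rfl

theorem hit_cons (j : Bool) (J y : List Bool) :
    hit (j :: J) y = ((!j || y.headD false) && hit J y.tail) := rfl

theorem hit_iff (J y : List Bool) :
    hit J y = true ↔ ∀ i, J.getD i false = true → y.getD i false = true := by
  induction J generalizing y with
  | nil => simp
  | cons j J ih =>
    rw [hit_cons, Bool.and_eq_true, ih]
    have e : ∀ i, y.tail.getD i false = y.getD (i + 1) false := by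
      intro i; cases y <;> simp
    have e0 : y.headD false = y.getD 0 false := by cases y <;> simp
    constructor
    · rintro ⟨h1, h2⟩ i hi
      cases i with
      | zero =>
        simp only [List.getD_cons_zero] at hi
        rw [hi, e0] at h1
        simpa using h1
      | succ i =>
        rw [← e]
        exact h2 i (by simpa using hi)
    · intro h
      refine ⟨?_, fun i hi => ?_⟩
      · have := h 0
        rw [List.getD_cons_zero] at this
        rw [e0]
        cases j
        · rfl
        · simpa using this rfl
      · rw [e]
        exact h (i + 1) (by simpa using hi)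

theorem hit_nil_right_iff (J : List Bool) : hit J [] = true ↔ J.count true = 0 := by
  induction J with
  | nil => simp
  | cons j J ih =>
    rw [hit_cons, List.tail_nil, Bool.and_eq_true, ih, List.headD_nil]
    cases j <;> simp

/-- expectation of `hit J` of a trace of `x` -/
noncomputable def eT (p : ℝ) : List Bool → List Bool → ℝ
  | [], J => if hit J [] then 1 else 0
  | b :: x, J => (1 - p) * eT p x J + p * (if (J.headD false && !b) = true then 0 else eT p x J.tail)

/-- scaled probability that the source positions `S` become the trace positions `J` -/
def Ec (a c : ℕ) : List Bool → List Bool → ℕ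
  | [], J => if hit J [] then 1 else 0
  | s :: S, J => (if s = true then 0 else c * Ec a c S J) +
      (if s = J.headD false then a * Ec a c S J.tail else 0)

theorem count_head_tail (J : List Bool) :
    J.count true = J.tail.count true + (if J.headD false = true then 1 else 0) := by
  cases J with
  | nil => simp
  | cons j J => cases j <;> simp

theorem Ec_ne_zero {a c : ℕ} {S J : List Bool} (h : Ec a c S J ≠ 0) :
    S.count true = J.count true := by
  induction S generalizing J with
  | nil =>
    rw [Ec] at h
    have h1 : hit J [] = true := by
      by_contra h'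
      exact h (if_neg h')
    rw [hit_nil_right_iff] at h1
    simp [h1]
  | cons s S ih =>
    rw [Ec] at h
    by_cases hs : s = true
    · subst hs
      rw [if_pos rfl, zero_add] at h
      by_cases h2 : true = J.headD false
      · rw [if_pos h2] at h
        have h3 := ih (right_ne_zero_of_mul h)
        rw [count_head_tail J, ← h2, if_pos rfl, ← h3]
        simp
      · rw [if_neg h2] at h; exact absurd rfl h
    · have hs' : s = false := by simpa using hs
      subst hs'
      rw [if_neg (by decide)] at h
      have e : (false :: S).count true = S.count true := by simp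
      rw [e]
      by_cases h1 : c * Ec a c S J = 0
      · rw [h1, zero_add] at h
        by_cases h2 : false = J.headD false
        · rw [if_pos h2] at h
          have h3 := ih (right_ne_zero_of_mul h)
          rw [count_head_tail J, ← h2, if_neg (by decide), ← h3]
          simp
        · rw [if_neg h2] at h; exact absurd rfl h
      · exact ih (right_ne_zero_of_mul h1)

theorem sum_mstep {M : Type} [AddCommMonoid M] (d : ℕ) (l : List (List Bool))
    (F : List Bool → M) (hl : ∀ S ∈ l, S.count true ≤ d)
    (hF : ∀ S ∈ l, ¬ S.count true + 1 ≤ d → F (true :: S) = 0) :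
    ((mstep d l).map F).sum = (l.map fun S => F (false :: S) + F (true :: S)).sum := by
  induction l with
  | nil => rfl
  | cons S l ih =>
    have h0 : mstep d (S :: l) = (([false :: S, true :: S] : List (List Bool)).filter
        fun S => decide (S.count true ≤ d)) ++ mstep d l := by
      unfold mstep
      rw [← List.filter_append]
      rfl
    rw [h0, List.map_append, List.sum_append, List.map_cons, List.sum_cons,
      ih (fun S hS => hl S (List.mem_cons_of_mem _ hS))
        (fun S hS => hF S (List.mem_cons_of_mem _ hS))]
    congr 1
    have h1 : (false :: S).count true ≤ d := by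
      have : (false :: S).count true = S.count true := by simp
      rw [this]; exact hl S List.mem_cons_self
    have h3 : (true :: S).count true = S.count true + 1 := List.count_cons_self
    rw [List.filter_cons, if_pos (decide_eq_true h1), List.filter_cons, h3]
    by_cases h2 : S.count true + 1 ≤ d
    · rw [if_pos (decide_eq_true h2)]; simp
    · rw [if_neg (by rw [decide_eq_false h2]; decide), hF S List.mem_cons_self h2]; simp

/-- the polynomial form of the trace moments -/
theorem sum_Ec (a c : ℕ) (hb : 0 < a + c) (d : ℕ) (x J : List Bool) (hJ : J.count true ≤ d) :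
    ((masks x.length d).map fun S => (Ec a c S J : ℝ) * (if hit S x then 1 else 0)).sum =
      ((a + c : ℕ) : ℝ) ^ x.length * eT ((a : ℝ) / ((a + c : ℕ) : ℝ)) x J := by
  have hb' : ((a + c : ℕ) : ℝ) ≠ 0 := by positivity
  induction x generalizing J with
  | nil =>
    rw [List.length_nil, masks_zero]
    simp [Ec, eT]
  | cons b x ih =>
    rw [List.length_cons, masks_succ, sum_mstep]
    · have hJt : J.tail.count true ≤ d := by
        have := count_head_tail J; omega
      have h1 := ih J hJ
      have h2 := ih J.tail hJt
      have e : ∀ S : List Bool,
          (Ec a c (false :: S) J : ℝ) * (if hit (false :: S) (b :: x) then 1 else 0) +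
          (Ec a c (true :: S) J : ℝ) * (if hit (true :: S) (b :: x) then 1 else 0) =
          (c : ℝ) * ((Ec a c S J : ℝ) * (if hit S x then 1 else 0)) +
          (if (J.headD false && !b) = true then 0 else a) *
            ((Ec a c S J.tail : ℝ) * (if hit S x then 1 else 0)) := by
        intro S
        rw [hit_cons, hit_cons, Ec, Ec]
        cases hh : hit S x <;> cases hj : J.headD false <;> cases b <;> simp [hh] <;> ring
      have e' : (fun S : List Bool =>
          (Ec a c (false :: S) J : ℝ) * (if hit (false :: S) (b :: x) then 1 else 0) +
          (Ec a c (true :: S) J : ℝ) * (if hit (true :: S) (b :: x) then 1 else 0)) =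
          fun S => (c : ℝ) * ((Ec a c S J : ℝ) * (if hit S x then 1 else 0)) +
          (if (J.headD false && !b) = true then 0 else a) *
            ((Ec a c S J.tail : ℝ) * (if hit S x then 1 else 0)) := funext e
      rw [e', List.sum_map_add, List.sum_map_mul_left, List.sum_map_mul_left, h1, h2, eT]
      have ec : (1 : ℝ) - (a : ℝ) / ((a + c : ℕ) : ℝ) = (c : ℝ) / ((a + c : ℕ) : ℝ) := by
        field_simp; push_cast; ring
      rw [ec]
      cases hj : J.headD false <;> cases b <;> simp only [Bool.and_true, Bool.and_false,
        Bool.not_true, Bool.not_false, Bool.false_eq_true, if_true, if_false, Bool.false_and,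
        Bool.true_and, Nat.cast_zero] <;> field_simp <;> ring
    · intro S hS; exact (mem_masks.1 hS).2
    · intro S hS h
      have : Ec a c (true :: S) J = 0 := by
        by_contra h'
        have h1 := Ec_ne_zero h'
        have h3 : (true :: S).count true = S.count true + 1 := List.count_cons_self
        omega
      rw [this]; simp

/-! ### the expectation -/

theorem bernoulliWeight_cons {n : ℕ} (p : ℝ) (b : Bool) (k : Fin n → Bool) :
    bernoulliWeight p (Fin.cons b k : Fin (n + 1) → Bool)
      = (if b then p else 1 - p) * bernoulliWeight p k := by
  unfold bernoulliWeight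
  rw [Fin.prod_univ_succ]
  simp

theorem traceOf_cons {n : ℕ} (x : Fin (n + 1) → Bool) (b : Bool) (k : Fin n → Bool) :
    traceOf x (Fin.cons b k : Fin (n + 1) → Bool)
      = if b then x 0 :: traceOf (fun i => x i.succ) k else traceOf (fun i => x i.succ) k := by
  unfold traceOf
  rw [List.finRange_succ]
  have h : List.map x (List.filter (fun i => (Fin.cons b k : Fin (n + 1) → Bool) i)
        (List.map Fin.succ (List.finRange n)))
      = List.map (fun i => x i.succ) (List.filter (fun i => k i) (List.finRange n)) := by
    rw [List.filter_map, List.map_map]
    rfl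
  cases b
  · simp only [Fin.cons_zero, List.filter_cons, Bool.false_eq_true, if_false]
    exact h
  · simp only [Fin.cons_zero, List.filter_cons, if_true, List.map_cons]
    rw [h]

theorem sum_hit (p : ℝ) {n : ℕ} (x : Fin n → Bool) (J : List Bool) :
    ∑ keep : Fin n → Bool, bernoulliWeight p keep * (if hit J (traceOf x keep) then 1 else 0) =
      eT p (List.ofFn x) J := by
  induction n generalizing J with
  | zero =>
    rw [Fintype.sum_unique]
    simp [bernoulliWeight, traceOf, eT]
  | succ n ih =>
    rw [← (Fin.consEquiv (fun _ => Bool)).sum_comp, Fintype.sum_prod_type]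
    simp only [Fintype.sum_bool]
    rw [List.ofFn_succ, eT, ← ih, add_comm, Finset.mul_sum]
    congr 1
    · refine Finset.sum_congr rfl fun k _ => ?_
      have : (Fin.consEquiv (fun _ : Fin (n + 1) => Bool)) (false, k)
          = (Fin.cons false k : Fin (n + 1) → Bool) := rfl
      rw [this, bernoulliWeight_cons, traceOf_cons]
      simp only [Bool.false_eq_true, if_false]
      rw [mul_assoc]
    · have h1 : ∀ k : Fin n → Bool,
          bernoulliWeight p ((Fin.consEquiv (fun _ : Fin (n + 1) => Bool)) (true, k)) *
            (if hit J (traceOf x ((Fin.consEquiv (fun _ : Fin (n + 1) => Bool)) (true, k))) then 1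
              else 0) = p * (bernoulliWeight p k * (if (J.headD false && !(x 0)) = true then 0 else
              (if hit J.tail (traceOf (fun i => x i.succ) k) then 1 else 0))) := by
        intro k
        have : (Fin.consEquiv (fun _ : Fin (n + 1) => Bool)) (true, k)
          = (Fin.cons true k : Fin (n + 1) → Bool) := rfl
        rw [this, bernoulliWeight_cons, traceOf_cons, if_pos rfl, if_pos rfl, mul_assoc]
        congr 2
        cases J with
        | nil => simp
        | cons j J =>
          rw [hit_cons]
          cases j <;> cases x 0 <;> simp <;> rfl
      rw [Finset.sum_congr rfl fun k _ => h1 k, ← Finset.mul_sum]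
      congr 1
      split_ifs with h
      · simp
      · rw [ih]

/-- the mask of a finite set -/
def maskOf (n : ℕ) (a : Finset ℕ) : List Bool := (List.range n).map fun i => decide (i ∈ a)

theorem maskOf_getD {n : ℕ} {a : Finset ℕ} (ha : ∀ j ∈ a, j < n) (i : ℕ) :
    (maskOf n a).getD i false = decide (i ∈ a) := by
  unfold maskOf
  by_cases hi : i < n
  · rw [List.getD_eq_getElem _ _ (by simpa using hi)]
    simp
  · rw [List.getD_eq_default _ _ (by simpa using Nat.le_of_not_lt hi)]
    symm
    rw [decide_eq_false_iff_not]
    exact fun h => hi (ha i h)

theorem hit_maskOf {n : ℕ} {a : Finset ℕ} (ha : ∀ j ∈ a, j < n) (y : List Bool) :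
    hit (maskOf n a) y = true ↔ ∀ j ∈ a, y.getD j false = true := by
  rw [hit_iff]
  simp only [maskOf_getD ha, decide_eq_true_eq]

theorem length_maskOf (n : ℕ) (a : Finset ℕ) : (maskOf n a).length = n := by
  simp [maskOf]

theorem count_maskOf {n : ℕ} {a : Finset ℕ} (ha : ∀ j ∈ a, j < n) :
    (maskOf n a).count true = a.card := by
  unfold maskOf
  rw [List.count, List.countP_map, List.countP_eq_length_filter]
  have h1 : (List.filter ((fun x => x == true) ∘ fun i => decide (i ∈ a)) (List.range n)).toFinset
      = a := by
    ext i
    simp only [List.mem_toFinset, List.mem_filter, List.mem_range, Function.comp]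
    constructor
    · rintro ⟨_, h⟩; simpa using h
    · intro h; exact ⟨ha i h, by simpa using h⟩
  rw [← List.toFinset_card_of_nodup (List.Nodup.filter _ List.nodup_range), h1]

theorem stat_eq {n : ℕ} {a : Finset ℕ} (ha : ∀ j ∈ a, j < n) (y : List Bool) :
    R300U.stat a y = if hit (maskOf n a) y = true then 1 else 0 := by
  unfold R300U.stat
  by_cases h : ∀ j ∈ a, y.getD j false = true
  · rw [if_pos h, if_pos ((hit_maskOf ha y).2 h)]
  · rw [if_neg h, if_neg (fun h' => h ((hit_maskOf ha y).1 h'))]

theorem TT_eq {n : ℕ} (p : ℝ) {a : Finset ℕ} (ha : ∀ j ∈ a, j < n) (x : Fin n → Bool) :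
    R300U.TT p a x = eT p (List.ofFn x) (maskOf n a) := by
  rw [← sum_hit]
  unfold R300U.TT
  exact Finset.sum_congr rfl fun k _ => by rw [stat_eq ha]

/-- the set of a mask -/
def setOf (J : List Bool) : Finset ℕ := (Finset.range J.length).filter fun i => J.getD i false = true

theorem maskOf_setOf (J : List Bool) : maskOf J.length (setOf J) = J := by
  unfold maskOf setOf
  refine List.ext_getElem (by simp) fun i h1 h2 => ?_
  simp only [List.length_map, List.length_range] at h1
  simp [h1, h2]

end Crest.Agent.R300.Dec
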