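import Crest.Agent.R300.Dec.Prog
import Crest.Agent.R300.U.DecGlue

/-!
# Row 300, machine side: the letter loop, empirical frequencies, masks and sets of positions
-/

set_option autoImplicit false
set_option linter.dupNamespace false

namespace Crest.Agent.R300.Dec

open Crest.Agent.Lib.PT Crest.FinProb Crest.TraceRecon

/-! ### the loop -/

theorem loop_take {n : ℕ} (x : Fin n → Bool) (f : List Bool → Bool)
    (h : ∀ t (ht : t < n), f ((List.ofFn x).take t) = x ⟨t, ht⟩) (i : ℕ) (hi : i ≤ n) :
    (fun w => w ++ [f w])^[i] [] = (List.ofFn x).take i := by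
  induction i with
  | zero => rfl
  | succ i ih =>
    rw [Function.iterate_succ_apply', ih (by omega)]
    have h1 : i < (List.ofFn x).length := by rw [List.length_ofFn]; omega
    show (List.ofFn x).take i ++ [f ((List.ofFn x).take i)] = _
    rw [h i (by omega), ← List.take_concat_get' _ _ h1]
    simp

theorem decodeCore_eq {a b n : ℕ} {Ys : List (List Bool)} (x : Fin n → Bool)
    (h : ∀ t (ht : t < n), nextBit Ys.length a b n (parK n Ys.length)
      (statsOf n (parK n Ys.length) Ys) ((List.ofFn x).take t) = x ⟨t, ht⟩) :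
    decodeCore a b n Ys = List.ofFn x := by
  unfold decodeCore
  rw [loop_take x (fun w => nextBit Ys.length a b n (parK n Ys.length)
      (statsOf n (parK n Ys.length) Ys) w) h n le_rfl]
  exact List.take_of_length_le (by rw [List.length_ofFn])

theorem decodeW_eq_core {a b n : ℕ} {Ys : List (List Bool)} (h : n ≤ Ys.length) :
    decodeW a b n Ys = decodeCore a b n Ys := by
  unfold decodeW
  rw [min_eq_left h]

theorem readWord_ofFn {n : ℕ} (x : Fin n → Bool) : readWord n (List.ofFn x) = x := by
  funext i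
  unfold readWord
  rw [List.getD_eq_getElem _ _ (by rw [List.length_ofFn]; exact i.2)]
  simp

/-! ### masks and sets of positions -/

theorem mem_setOf {J : List Bool} {i : ℕ} : i ∈ setOf J ↔ J.getD i false = true := by
  unfold setOf
  rw [Finset.mem_filter, Finset.mem_range]
  refine ⟨fun h => h.2, fun h => ⟨?_, h⟩⟩
  by_contra hcon
  rw [List.getD_eq_default _ _ (by omega)] at h
  exact absurd h (by simp)

theorem lt_of_mem_setOf {J : List Bool} {i : ℕ} (h : i ∈ setOf J) : i < J.length := by
  unfold setOf at h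
  exact Finset.mem_range.1 (Finset.mem_filter.1 h).1

theorem maskOf_setOf' {J : List Bool} {n : ℕ} (h : J.length = n) : maskOf n (setOf J) = J := by
  subst h
  exact maskOf_setOf J

theorem setOf_maskOf {n : ℕ} {a : Finset ℕ} (ha : ∀ j ∈ a, j < n) : setOf (maskOf n a) = a := by
  ext i
  rw [mem_setOf, maskOf_getD ha, decide_eq_true_eq]

theorem setOf_cons (b : Bool) (J : List Bool) :
    setOf (b :: J) = (if b then {0} else ∅) ∪ (setOf J).image (· + 1) := by
  ext i
  rw [mem_setOf, Finset.mem_union, Finset.mem_image]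
  cases i with
  | zero => cases b <;> simp
  | succ i =>
    rw [List.getD_cons_succ]
    constructor
    · intro h
      exact Or.inr ⟨i, mem_setOf.2 h, rfl⟩
    · rintro (h | ⟨j, hj, hj'⟩)
      · cases b <;> simp at h
      · obtain rfl : j = i := by simpa using hj'
        exact mem_setOf.1 hj

theorem card_setOf (J : List Bool) : (setOf J).card = J.count true := by
  induction J with
  | nil => simp [setOf]
  | cons b J ih =>
    rw [setOf_cons, Finset.card_union_of_disjoint, Finset.card_image_of_injective _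
      (add_left_injective 1), ih]
    · cases b
      · simp
      · simp [add_comm]
    · rw [Finset.disjoint_left]
      intro i hi hi'
      obtain ⟨j, _, rfl⟩ := Finset.mem_image.1 hi'
      cases b <;> simp at hi

theorem maskOf_mem_masks {n K : ℕ} {a : Finset ℕ} (hK : a.card ≤ K) (ha : ∀ j ∈ a, j < n) :
    maskOf n a ∈ masks n K := by
  rw [mem_masks]
  exact ⟨length_maskOf n a, by rw [count_maskOf ha]; exact hK⟩

theorem mask_eq_maskOf {n K : ℕ} {J : List Bool} (h : J ∈ masks n K) :
    J = maskOf n (setOf J) ∧ (setOf J).card = J.count true ∧ (setOf J).card ≤ K ∧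
      ∀ j ∈ setOf J, j < n := by
  rw [mem_masks] at h
  refine ⟨(maskOf_setOf' h.1).symm, card_setOf J, by rw [card_setOf]; exact h.2, fun j hj => ?_⟩
  have := lt_of_mem_setOf hj
  omega

/-! ### statistics -/

theorem countP_ofFn {α : Type} {m : ℕ} (τ : Fin m → α) (f : α → Bool) :
    (((List.ofFn τ).countP f : ℕ) : ℝ) = ∑ k, if f (τ k) then (1 : ℝ) else 0 := by
  induction m with
  | zero => simp
  | succ m ih =>
    rw [List.ofFn_succ, List.countP_cons, Fin.sum_univ_succ, ← ih (fun i => τ i.succ)]
    cases h : f (τ 0) <;> simp [add_comm]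

theorem emp_eq_That {n m : ℕ} {a : Finset ℕ} (ha : ∀ j ∈ a, j < n) (τ : Fin m → List Bool) :
    ((emp (maskOf n a) (List.ofFn τ) : ℚ) : ℝ) = R300U.That τ a := by
  unfold emp R300U.That
  rw [Rat.cast_div, Rat.cast_natCast, Rat.cast_natCast, List.length_ofFn, countP_ofFn]
  congr 1
  exact Finset.sum_congr rfl fun k _ => (stat_eq ha (τ k)).symm

theorem emp_nonneg (J : List Bool) (Ys : List (List Bool)) : 0 ≤ emp J Ys := by
  unfold emp
  positivity

theorem emp_le_one (J : List Bool) (Ys : List (List Bool)) : emp J Ys ≤ 1 := by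
  unfold emp
  rcases Nat.eq_zero_or_pos Ys.length with h | h
  · rw [h]; simp
  · rw [div_le_one (by exact_mod_cast h)]
    exact_mod_cast List.countP_le_length

/-- membership in the list of statistics -/
theorem mem_statsOf {n K : ℕ} {Ys : List (List Bool)} {Jt : List Bool × ℚ}
    (h : Jt ∈ statsOf n K Ys) :
    Jt.1 ∈ masks n K ∧ Jt.1.length = n ∧ Jt.1.count true ≤ K ∧ Jt.2 = emp Jt.1 Ys ∧
      0 ≤ Jt.2 ∧ Jt.2 ≤ 1 := by
  unfold statsOf at h
  obtain ⟨J, hJ, rfl⟩ := List.mem_map.1 h
  exact ⟨hJ, (mem_masks.1 hJ).1, (mem_masks.1 hJ).2, rfl, emp_nonneg _ _, emp_le_one _ _⟩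

theorem statsOf_mem {n K : ℕ} (Ys : List (List Bool)) {J : List Bool} (h : J ∈ masks n K) :
    (J, emp J Ys) ∈ statsOf n K Ys :=
  List.mem_map.2 ⟨J, h, rfl⟩

end Crest.Agent.R300.Dec
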