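import Crest.Agent.R300.Dec.Prog
import Crest.Agent.R300.U.DecParam

/-!
# Row 300, machine side: parameters and row norms (owner helper899)
-/

set_option autoImplicit false
set_option linter.dupNamespace false

namespace Crest.Agent.R300.Dec

open Crest.Agent.Lib.PT Crest.TraceRecon
open Crest.Agent.R300U.DecParam

/-! ### real parameters -/

theorem param (C : ℝ) (hC : 1 ≤ C) : ∃ C' : ℝ, 1 ≤ C' ∧ ∀ n : ℕ, 2 ≤ n → ∀ p : ℝ, 0 < p → p < 1 →
    ∀ K : ℕ, (K : ℝ) * Real.log n ≤
      C * (p⁻¹ * Real.log n * (1 + Real.log n / (1 + Real.log (1 / (1 - p)))) ^ 2) →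
    n ≤ traceBudget C' n p ∧ 10000 ≤ Nat.log 2 (traceBudget C' n p) ∧
    K ≤ parK n (traceBudget C' n p) ∧
    8 * (1 / 2 : ℝ) ^ (Nat.log 2 (traceBudget C' n p) / 8) ≤
      Real.exp (-(C * (p⁻¹ * Real.log n * (1 + Real.log n / (1 + Real.log (1 / (1 - p)))) ^ 2))) := by
  refine ⟨20000 + 300 * C, by linarith, fun n hn p hp hp1 K hK => ?_⟩
  have h1 : (1 : ℝ) ≤ 20000 + 300 * C := by linarith
  refine ⟨?_, ?_, ?_, ?_⟩
  · have h2 := exp_le_budget (C := 20000 + 300 * C) hn hp hp1 (by linarith)
    have h3 := log_le_Bx hn hp hp1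
    have h4 := Bx_ge hn hp hp1
    have hn0 : (0 : ℝ) < n := by exact_mod_cast (by omega : 0 < n)
    have h5 : (n : ℝ) ≤ Real.exp ((20000 + 300 * C) * Bx n p) := by
      rw [← Real.log_le_iff_le_exp hn0]
      refine h3.trans ?_
      exact le_mul_of_one_le_left (by linarith) h1
    exact_mod_cast h5.trans h2
  · exact lam_large (C := 20000 + 300 * C) hn hp hp1 (by linarith) (by push_cast; linarith) le_rfl
  · exact K_le (C0 := C) (C := 20000 + 300 * C) hn hp hp1 hC (by linarith) le_rfl hK
  · have h2 := tol_le (C0 := C) (C := 20000 + 300 * C) (a := 8) (c := 3) hn hp hp1 (by linarith)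
      (by norm_num) (by push_cast; linarith) (le_refl (traceBudget (20000 + 300 * C) n p))
    have e : 8 * (1 / 2 : ℝ) ^ (Nat.log 2 (traceBudget (20000 + 300 * C) n p) / 8) =
        2 ^ 3 / 2 ^ (Nat.log 2 (traceBudget (20000 + 300 * C) n p) / 8) := by
      rw [one_div, inv_pow, div_eq_mul_inv]
      norm_num
    rw [e]
    exact h2

theorem pow_parK_le (n m : ℕ) (_hm : 1 ≤ m) : (n + 1) ^ (64 * parK n m) ≤ 2 ^ Nat.log 2 m :=
  (pow_K_le n (Nat.log 2 m) 64).trans
    (Nat.pow_le_pow_right (by norm_num) (Nat.mul_div_le _ _))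

/-! ### row norms -/

theorem abs_list_sum_le (l : List ℚ) : |l.sum| ≤ (l.map fun x => |x|).sum := by
  induction l with
  | nil => simp
  | cons a l ih =>
    rw [List.sum_cons, List.map_cons, List.sum_cons]
    exact (abs_add_le _ _).trans (add_le_add le_rfl ih)

theorem sum_abs_nonneg (l : List ℚ) : 0 ≤ (l.map fun x => |x|).sum := by
  apply List.sum_nonneg
  intro x hx
  rw [List.mem_map] at hx
  obtain ⟨y, _, rfl⟩ := hx
  exact abs_nonneg y

theorem dotQ_self_le (l : List ℚ) : dotQ l l ≤ ((l.map fun x => |x|).sum) ^ 2 := by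
  unfold dotQ
  induction l with
  | nil => simp
  | cons a l ih =>
    rw [List.zipWith_cons_cons, List.sum_cons, List.map_cons, List.sum_cons]
    have h1 := sum_abs_nonneg l
    have h2 := abs_nonneg a
    have h3 : a * a = |a| * |a| := (abs_mul_abs_self a).symm
    nlinarith [mul_nonneg h2 h1]

/-- distributing a list over the keys of a duplicate-free list -/
theorem sum_filter_key_le (ms : List (List Bool)) (hms : ms.Nodup) (Q : List (ℚ × List Bool)) :
    (ms.map fun R => (((Q.filter fun v => decide (v.2 = R)).map fun v => |v.1|).sum)).sum ≤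
      (Q.map fun v => |v.1|).sum := by
  induction Q with
  | nil => simp
  | cons q Q ih =>
    rw [List.map_cons, List.sum_cons]
    have h1 : ∀ R : List Bool,
        ((((q :: Q).filter fun v => decide (v.2 = R)).map fun v => |v.1|).sum) =
          (if q.2 = R then |q.1| else 0) +
            (((Q.filter fun v => decide (v.2 = R)).map fun v => |v.1|).sum) := by
      intro R
      rw [List.filter_cons]
      by_cases h : q.2 = R
      · rw [if_pos (decide_eq_true h), if_pos h, List.map_cons, List.sum_cons]
      · rw [if_neg (by simpa using h), if_neg h, zero_add]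
    rw [List.map_congr_left (fun R _ => h1 R), List.sum_map_add]
    refine add_le_add ?_ ih
    clear ih h1
    induction ms with
    | nil => simp
    | cons R l ihl =>
      rw [List.nodup_cons] at hms
      rw [List.map_cons, List.sum_cons]
      by_cases h : q.2 = R
      · rw [if_pos h]
        have : (l.map fun R => if q.2 = R then |q.1| else 0).sum = 0 := by
          apply List.sum_eq_zero
          intro x hx
          rw [List.mem_map] at hx
          obtain ⟨R', hR', rfl⟩ := hx
          rw [if_neg]
          intro e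
          exact hms.1 (by rw [← h, e]; exact hR')
        rw [this, add_zero]
      · rw [if_neg h, zero_add]
        exact ihl hms.2

theorem sum_abs_rowOf_le (N d : ℕ) (P : List (List Bool × ℚ)) :
    ((rowOf N d P).map fun x => |x|).sum ≤ ((P.map fun u => |u.2|).sum) ^ 2 := by
  unfold rowOf
  rw [List.map_map]
  have h3 : ∀ R : List Bool, (P.flatMap fun u => (P.filter fun v => decide (orL u.1 v.1 = R)).map
      fun v => u.2 * v.2) = (((P.flatMap fun u => P.map fun v => (u.2 * v.2, orL u.1 v.1)).filter
        fun v => decide (v.2 = R)).map fun v => v.1) := by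
    intro R
    rw [List.filter_flatMap, List.map_flatMap]
    congr 1
    funext u
    rw [List.filter_map, List.map_map]
    rfl
  have h4 : ((masks N d).map ((fun x => |x|) ∘ fun R => (P.flatMap fun u =>
      (P.filter fun v => decide (orL u.1 v.1 = R)).map fun v => u.2 * v.2).sum)).sum ≤
      ((masks N d).map fun R =>
        ((((P.flatMap fun u => P.map fun v => (u.2 * v.2, orL u.1 v.1)).filter
          fun v => decide (v.2 = R)).map fun v => |v.1|).sum)).sum := by
    refine List.sum_le_sum fun R _ => ?_
    simp only [Function.comp_apply]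
    rw [h3 R]
    refine (abs_list_sum_le _).trans (le_of_eq ?_)
    rw [List.map_map]
    rfl
  refine h4.trans ((sum_filter_key_le _ (nodup_masks N d) _).trans (le_of_eq ?_))
  rw [List.map_flatMap, List.flatMap_def, List.sum_flatten, List.map_map]
  have h5 : (List.sum ∘ fun u : List Bool × ℚ =>
      (P.map fun v => (u.2 * v.2, orL u.1 v.1)).map fun v => |v.1|) =
      fun u => |u.2| * (P.map fun v => |v.2|).sum := by
    funext u
    simp only [Function.comp_apply]
    rw [List.map_map, ← List.sum_map_mul_left]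
    congr 1
    refine List.map_congr_left fun v _ => ?_
    simp only [Function.comp_apply]
    rw [abs_mul]
  rw [h5, List.sum_map_mul_right, sq]

theorem sum_abs_snd_nonneg (P : List (List Bool × ℚ)) : 0 ≤ (P.map fun u => |u.2|).sum := by
  apply List.sum_nonneg
  intro x hx
  rw [List.mem_map] at hx
  obtain ⟨y, _, rfl⟩ := hx
  exact abs_nonneg _

/-- the Euclidean norm of a row -/
theorem dotQ_rowOf_le (N d : ℕ) (P : List (List Bool × ℚ)) (B : ℚ)
    (hB : (P.map fun u => |u.2|).sum ≤ B) : dotQ (rowOf N d P) (rowOf N d P) ≤ B ^ 4 := by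
  have h1 := dotQ_self_le (rowOf N d P)
  have h2 := sum_abs_rowOf_le N d P
  have h3 := sum_abs_nonneg (rowOf N d P)
  have h4 := sum_abs_snd_nonneg P
  calc dotQ (rowOf N d P) (rowOf N d P) ≤ (((rowOf N d P).map fun x => |x|).sum) ^ 2 := h1
    _ ≤ (((P.map fun u => |u.2|).sum) ^ 2) ^ 2 := pow_le_pow_left₀ h3 h2 2
    _ = ((P.map fun u => |u.2|).sum) ^ 4 := by ring
    _ ≤ B ^ 4 := pow_le_pow_left₀ h4 hB 4

theorem sum_abs_terms_le {a b n K : ℕ} (hab : a ≤ b) (hb : 0 < b) (w J : List Bool) {th : ℚ}
    (h0 : 0 ≤ th) (h1 : th ≤ 1) (hJ : J.length = n) :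
    ((terms a b n K w J th).map fun u => |u.2|).sum ≤ 1 + ((n + 1 : ℕ) : ℚ) ^ K := by
  unfold terms
  rw [List.map_cons, List.sum_cons, List.map_map]
  refine add_le_add ?_ ?_
  · rw [abs_neg, abs_of_nonneg h0]; exact h1
  · have hbq : (0 : ℚ) < (b : ℚ) ^ n := by positivity
    have h2 : ∀ S ∈ (masks n K).filter fun S => hit (S.take w.length) w,
        ((fun u : List Bool × ℚ => |u.2|) ∘ fun S : List Bool =>
          (S.drop w.length, (EcDP a (b - a) S J : ℚ) / (b : ℚ) ^ n)) S ≤ 1 := by
      intro S hS
      simp only [Function.comp_apply]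
      have hSn : S.length = n := (mem_masks.1 (List.mem_of_mem_filter hS)).1
      rw [EcDP_eq a (b - a) (by omega : S.length ≤ J.length), abs_of_nonneg (by positivity),
        div_le_one hbq]
      have h3 := Ec_le a (b - a) S J
      rw [hSn, Nat.add_sub_cancel' hab] at h3
      exact_mod_cast h3
    have h4 : (((masks n K).filter fun S => hit (S.take w.length) w).map
        ((fun u : List Bool × ℚ => |u.2|) ∘ fun S : List Bool =>
          (S.drop w.length, (EcDP a (b - a) S J : ℚ) / (b : ℚ) ^ n))).sum ≤
        (((masks n K).filter fun S => hit (S.take w.length) w).map fun _ => (1 : ℚ)).sum :=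
      List.sum_le_sum h2
    refine h4.trans ?_
    rw [List.map_const', List.sum_replicate, nsmul_eq_mul, mul_one]
    have h5 : ((masks n K).filter fun S => hit (S.take w.length) w).length ≤ (n + 1) ^ K :=
      (List.length_filter_le _ _).trans (length_masks_le n K)
    exact_mod_cast h5

end Crest.Agent.R300.Dec
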