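import Crest.Agent.Lib.PT.ListFns2
import Crest.Agent.Lib.PT.ArithRat
import Crest.Agent.Lib.PT.Alphabet
import Crest.Prelude.Def_TraceDecoder
import Crest.Prelude.Def_Randomized

/-!
# Row 300: reading the input of the decoder
-/

set_option autoImplicit false

namespace Crest.Agent.R300.Dec

open Crest.Agent.Lib.PT Crest.Enc Crest.TraceRecon

/-- binary value of a list of bits (least significant first) -/
def ofB (l : List Bool) : ℕ := l.foldr (fun b n => Nat.bit b n) 0

/-- state: (digits read, reversed), rest, finished -/
abbrev RdS := List Bool × List Bool × Bool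

/-- one step of reading a natural number -/
def rdStep (s : RdS) : RdS :=
  bif s.2.2 then s else
    match s.2.1 with
    | [] => (s.1, [], true)
    | a :: t => match t with
      | [] => (s.1, [], true)
      | b :: r => bif a then (b :: s.1, r, false) else (s.1, r, true)

/-- read a natural number -/
def readNat (l : List Bool) : ℕ × List Bool :=
  (ofB (rdStep^[l.length] ([], l, false)).1.reverse, (rdStep^[l.length] ([], l, false)).2.1)

theorem ofB_bits (n : ℕ) : ofB n.bits = n := by
  unfold ofB
  induction n using Nat.binaryRec' with
  | zero => simp
  | bit b n h ih =>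
    rw [Nat.bits_append_bit n b h]
    simp [ih]

theorem rdStep_done (k : ℕ) (a r : List Bool) : rdStep^[k] (a, r, true) = (a, r, true) := by
  induction k with
  | zero => rfl
  | succ k ih => rw [Function.iterate_succ_apply', ih]; rfl

theorem rdStep_digits (ds acc r : List Bool) :
    rdStep^[ds.length] (acc, (ds.map fun b => [true, b]).flatten ++ r, false)
      = (ds.reverse ++ acc, r, false) := by
  induction ds generalizing acc with
  | nil => simp
  | cons d ds ih =>
    rw [List.length_cons, Function.iterate_succ_apply]
    have h : rdStep (acc, ((d :: ds).map fun b => [true, b]).flatten ++ r, false)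
        = (d :: acc, (ds.map fun b => [true, b]).flatten ++ r, false) := by
      simp [rdStep]
    rw [h, ih]
    simp

theorem readNat_natCode (n : ℕ) (r : List Bool) : readNat (natCode n ++ r) = (n, r) := by
  unfold readNat natCode
  have hlen : ((n.bits.map fun b => [true, b]).flatten ++ [false, false] ++ r).length
      = (2 * n.bits.length - n.bits.length + 1 + r.length) + 1 + n.bits.length := by
    simp only [List.length_append, List.length_flatten, List.map_map, List.length_cons,
      List.length_nil]
    have : (n.bits.map (List.length ∘ fun b => [true, b])).sum = 2 * n.bits.length := by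
      induction n.bits with
      | nil => simp
      | cons a l ih => simp [ih]; omega
    omega
  have key : rdStep^[((n.bits.map fun b => [true, b]).flatten ++ [false, false] ++ r).length]
      ([], (n.bits.map fun b => [true, b]).flatten ++ [false, false] ++ r, false)
      = (n.bits.reverse, r, true) := by
    rw [hlen, Function.iterate_add_apply, List.append_assoc, rdStep_digits,
      Function.iterate_add_apply]
    simp only [List.append_nil, Function.iterate_one]
    have h : rdStep (n.bits.reverse, [false, false] ++ r, false) = (n.bits.reverse, r, true) := by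
      simp [rdStep]
    rw [h, rdStep_done]
  rw [key]
  simp [ofB_bits]

/-- read the absolute value of a rational: numerator and denominator -/
def readRat (l : List Bool) : (ℕ × ℕ) × List Bool :=
  ((readNat l.tail).1, (readNat (readNat l.tail).2).1, (readNat (readNat l.tail).2).2) |>
    fun t => ((t.1, t.2.1), t.2.2)

theorem readRat_ratCode (q : ℚ) (r : List Bool) :
    readRat (ratCode q ++ r) = ((q.num.natAbs, q.den), r) := by
  unfold readRat ratCode
  simp only [List.cons_append, List.tail_cons, List.append_assoc, readNat_natCode]

/-- read one word -/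
def rdWord (s : List (List Bool) × List Bool) : List (List Bool) × List Bool :=
  ((readNat s.2).2.take (readNat s.2).1 :: s.1, (readNat s.2).2.drop (readNat s.2).1)

theorem rdWord_step (acc : List (List Bool)) (w r : List Bool) :
    rdWord (acc, natCode w.length ++ w ++ r) = (w :: acc, r) := by
  unfold rdWord
  simp only [List.append_assoc, readNat_natCode]
  simp

theorem rdWord_iter (ws acc : List (List Bool)) (r : List Bool) :
    rdWord^[ws.length] (acc, (ws.map fun w => natCode w.length ++ w).flatten ++ r)
      = (ws.reverse ++ acc, r) := by
  induction ws generalizing acc with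
  | nil => simp
  | cons w ws ih =>
    rw [List.length_cons, Function.iterate_succ_apply, List.map_cons, List.flatten_cons,
      List.append_assoc, rdWord_step, ih]
    simp

/-- read the whole input: word length, retention probability, traces -/
def parseInput (l : List Bool) : ℕ × (ℕ × ℕ) × List (List Bool) :=
  let a := readNat l
  let b := readRat a.2
  let c := readNat b.2
  (a.1, b.1, (rdWord^[min c.1 l.length] ([], c.2)).1.reverse)

theorem length_le_flatten (ws : List (List Bool)) :
    ws.length ≤ (ws.map fun w => natCode w.length ++ w).flatten.length := by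
  induction ws with
  | nil => simp
  | cons w ws ih =>
    rw [List.map_cons, List.flatten_cons, List.length_append, List.length_cons]
    have : 1 ≤ (natCode w.length ++ w).length := by
      unfold natCode
      simp only [List.length_append, List.length_cons, List.length_nil]
      omega
    omega

theorem parse_decoderInput' {n m : ℕ} (p : ℚ) (τ : Fin m → List Bool) :
    parseInput (decoderInput n p τ) = (n, (p.num.natAbs, p.den), List.ofFn τ) := by
  unfold parseInput decoderInput traceListCode
  simp only [List.append_assoc, readNat_natCode, readRat_ratCode]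
  have h1 : min (List.ofFn τ).length (natCode n ++ (ratCode p ++ (natCode (List.ofFn τ).length ++
      ((List.ofFn τ).map fun w => natCode w.length ++ w).flatten))).length = (List.ofFn τ).length := by
    apply min_eq_left
    have := length_le_flatten (List.ofFn τ)
    simp only [List.length_append] at this ⊢
    omega
  rw [h1]
  have h2 := rdWord_iter (List.ofFn τ) [] []
  simp only [List.append_nil] at h2
  rw [h2]
  simp

theorem parse_decoderInput {n m : ℕ} (p : ℚ) (_hp : 0 ≤ p) (τ : Fin m → List Bool) :
    parseInput (Crest.TraceRecon.decoderInput n p τ) = (n, (p.num.natAbs, p.den), List.ofFn τ) :=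
  parse_decoderInput' p τ

/-! ### polynomial time -/

section pt

variable {γ : Type} [PTCode γ]

theorem ptf_rdStep {s : γ → RdS} (hs : PTF s) : PTF (fun c => rdStep (s c)) := by
  have h1 : PTF (fun s : RdS => match s.2.1 with
      | [] => ((s.1, [], true) : RdS)
      | a :: t => match t with
        | [] => (s.1, [], true)
        | b :: r => bif a then (b :: s.1, r, false) else (s.1, r, true)) := by
    have h0 := PTF.listCasesOn (s := fun p : RdS × Bool × List Bool => p.2.2)
      (f := fun p => ((p.1.1, [], true) : RdS))
      (g := fun p b r => bif p.2.1 then ((b :: p.1.1, r, false) : RdS) else (p.1.1, r, true))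
      (by fun_prop) (by fun_prop) (PTF.cond (by fun_prop) (by fun_prop) (by fun_prop))
    have h := PTF.listCasesOn (s := fun s : RdS => s.2.1) (f := fun s => ((s.1, [], true) : RdS))
      (g := fun s a t => match t with
        | [] => ((s.1, [], true) : RdS)
        | b :: r => bif a then (b :: s.1, r, false) else (s.1, r, true)) (by fun_prop)
      (by fun_prop) (PTF.of_eq h0 (fun p => by rcases p.2.2 with _ | ⟨b, r⟩ <;> rfl))
    refine PTF.of_eq h (fun s => ?_)
    rcases s.2.1 with _ | ⟨a, _ | ⟨b, r⟩⟩ <;> rfl
  have h2 : PTF rdStep := by
    unfold rdStep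
    exact PTF.cond (by fun_prop) (by fun_prop) h1
  exact PTF.comp h2 hs

theorem rdStep_len (s : RdS) : (rdStep s).1.length ≤ s.1.length + 1 ∧
    (rdStep s).2.1.length ≤ s.2.1.length := by
  unfold rdStep
  rcases s with ⟨a, l, b⟩
  cases b
  · cases l with
    | nil => simp
    | cons x t =>
      cases t with
      | nil => simp
      | cons y r => cases x <;> simp <;> omega
  · simp

theorem rdStep_iter_len (k : ℕ) (s : RdS) : (rdStep^[k] s).1.length ≤ s.1.length + k ∧
    (rdStep^[k] s).2.1.length ≤ s.2.1.length := by
  induction k with
  | zero => simp
  | succ k ih =>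
    rw [Function.iterate_succ_apply']
    have := rdStep_len (rdStep^[k] s)
    omega

theorem ptf_rdIter {l : γ → List Bool} (hl : PTF l) :
    PTF (fun c => rdStep^[(l c).length] ([], l c, false)) := by
  refine PTF.iterate' (f := fun (_ : γ) s => rdStep s) (a := fun c => (([], l c, false) : RdS))
    (PTU.length hl) (ptf_rdStep PTF.snd) (by fun_prop)
    (B := fun c => 2 * (3 * (l c).length) + 1 + (2 * (3 * (l c).length) + 1 + 1)) ?_ ?_
  · have h1 := (PTU.length hl).pb
    fun_prop
  · intro c i hi
    have h := rdStep_iter_len i ([], l c, false)
    simp only [List.length_nil, zero_add] at h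
    change sz (rdStep^[i] ([], l c, false)) ≤ _
    rw [sz_prod, sz_prod, sz_listBool, sz_listBool, sz_bool]
    omega

theorem ptf_readNat {l : γ → List Bool} (hl : PTF l) : PTF (fun c => readNat (l c)) := by
  unfold readNat ofB
  have h := ptf_rdIter hl
  exact PTF.prodMk (PTF.ofBits (PTF.reverse (PTF.comp (g := fun s : RdS => s.1) (by fun_prop) h)))
    (PTF.comp (g := fun s : RdS => s.2.1) (by fun_prop) h)

theorem readNat_len (l : List Bool) : (readNat l).2.length ≤ l.length :=
  (rdStep_iter_len l.length ([], l, false)).2

theorem ptf_readRat {l : γ → List Bool} (hl : PTF l) : PTF (fun c => readRat (l c)) := by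
  unfold readRat
  have ha := ptf_readNat (PTF.tail hl)
  have hb := ptf_readNat (PTF.comp (g := fun p : ℕ × List Bool => p.2) (by fun_prop) ha)
  exact PTF.prodMk (PTF.prodMk (PTF.comp (g := fun p : ℕ × List Bool => p.1) (by fun_prop) ha)
    (PTF.comp (g := fun p : ℕ × List Bool => p.1) (by fun_prop) hb))
    (PTF.comp (g := fun p : ℕ × List Bool => p.2) (by fun_prop) hb)

/-- `take` with a binary index -/
theorem ptf_takeB {α : Type} [PTCode α] {n : γ → ℕ} {l : γ → List α} (hn : PTF n) (hl : PTF l) :
    PTF (fun c => (l c).take (n c)) := by
  refine PTF.of_eq (PTF.take (PTF.natMinUn hn (PTU.length hl)) hl) (fun c => ?_)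
  rcases le_total (n c) (l c).length with h | h
  · rw [min_eq_left h]
  · rw [min_eq_right h, List.take_of_length_le h, List.take_of_length_le le_rfl]

/-- `drop` with a binary index -/
theorem ptf_dropB {α : Type} [PTCode α] {n : γ → ℕ} {l : γ → List α} (hn : PTF n) (hl : PTF l) :
    PTF (fun c => (l c).drop (n c)) := by
  refine PTF.of_eq (PTF.drop (PTF.natMinUn hn (PTU.length hl)) hl) (fun c => ?_)
  rcases le_total (n c) (l c).length with h | h
  · rw [min_eq_left h]
  · rw [min_eq_right h, List.drop_of_length_le h, List.drop_of_length_le le_rfl]

theorem ptf_rdWord {s : γ → List (List Bool) × List Bool} (hs : PTF s) :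
    PTF (fun c => rdWord (s c)) := by
  unfold rdWord
  have h := ptf_readNat (PTF.comp (g := fun p : List (List Bool) × List Bool => p.2) (by fun_prop) hs)
  have h1 := PTF.comp (g := fun p : ℕ × List Bool => p.1) (by fun_prop) h
  have h2 := PTF.comp (g := fun p : ℕ × List Bool => p.2) (by fun_prop) h
  exact PTF.prodMk (PTF.listCons (ptf_takeB h1 h2)
    (PTF.comp (g := fun p : List (List Bool) × List Bool => p.1) (by fun_prop) hs)) (ptf_dropB h1 h2)

/-- total length of the words read so far -/
def totLen (ws : List (List Bool)) : ℕ := (ws.map List.length).sum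

theorem rdWord_inv (k : ℕ) (s : List (List Bool) × List Bool) :
    (rdWord^[k] s).1.length = s.1.length + k ∧
    totLen (rdWord^[k] s).1 + (rdWord^[k] s).2.length ≤ totLen s.1 + s.2.length := by
  induction k with
  | zero => simp
  | succ k ih =>
    rw [Function.iterate_succ_apply']
    obtain ⟨h1, h2⟩ := ih
    set t := rdWord^[k] s
    have h3 := readNat_len t.2
    constructor
    · simp only [rdWord, List.length_cons, h1]; omega
    · simp only [rdWord, totLen, List.map_cons, List.sum_cons, List.length_take, List.length_drop]
      unfold totLen at h2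
      omega

theorem sz_words_le (ws : List (List Bool)) : sz ws ≤ 6 * totLen ws + ws.length := by
  induction ws with
  | nil => simp [totLen]
  | cons w ws ih =>
    simp only [sz_cons, totLen, List.map_cons, List.sum_cons, List.length_cons, sz_listBool] at *
    omega

theorem ptf_parseInput' {l : γ → List Bool} (hl : PTF l) : PTF (fun c => parseInput (l c)) := by
  unfold parseInput
  have ha := ptf_readNat hl
  have ha1 := PTF.comp (g := fun p : ℕ × List Bool => p.1) (by fun_prop) ha
  have ha2 := PTF.comp (g := fun p : ℕ × List Bool => p.2) (by fun_prop) ha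
  have hb := ptf_readRat ha2
  have hb1 := PTF.comp (g := fun p : (ℕ × ℕ) × List Bool => p.1) (by fun_prop) hb
  have hb2 := PTF.comp (g := fun p : (ℕ × ℕ) × List Bool => p.2) (by fun_prop) hb
  have hc := ptf_readNat hb2
  have hc1 := PTF.comp (g := fun p : ℕ × List Bool => p.1) (by fun_prop) hc
  have hc2 := PTF.comp (g := fun p : ℕ × List Bool => p.2) (by fun_prop) hc
  have hlen : PTU (fun c => (l c).length) := PTU.length hl
  have hit : PTF (fun c => rdWord^[min (readNat (readRat (readNat (l c)).2).2).1 (l c).length]
      (([] : List (List Bool)), (readNat (readRat (readNat (l c)).2).2).2)) := by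
    refine PTF.iterate' (f := fun (_ : γ) s => rdWord s) (PTF.natMinUn hc1 hlen)
      (ptf_rdWord PTF.snd) (PTF.prodMk (PTF.const _) hc2)
      (B := fun c => 2 * (6 * sz (readNat (readRat (readNat (l c)).2).2).2 + (l c).length) + 1
        + 3 * sz (readNat (readRat (readNat (l c)).2).2).2) ?_ ?_
    · have h1 := hlen.pb
      have h2 := hc2.sz
      fun_prop
    · intro c i hi
      have h := rdWord_inv i (([] : List (List Bool)), (readNat (readRat (readNat (l c)).2).2).2)
      simp only [List.length_nil, zero_add, totLen, List.map_nil, List.sum_nil] at h
      change sz (rdWord^[i] (([] : List (List Bool)), (readNat (readRat (readNat (l c)).2).2).2)) ≤ _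
      rw [sz_prod, sz_listBool, sz_listBool]
      have h2 := sz_words_le (rdWord^[i] (([] : List (List Bool)), (readNat (readRat (readNat (l c)).2).2).2)).1
      unfold totLen at h2
      have h3 : i ≤ (l c).length := hi.trans (min_le_right _ _)
      omega
  exact PTF.prodMk ha1 (PTF.prodMk hb1 (PTF.reverse
    (PTF.comp (g := fun p : List (List Bool) × List Bool => p.1) (by fun_prop) hit)))

theorem ptf_parseInput : PTF parseInput := ptf_parseInput' PTF.id

/-- a poly-time function of the parsed input is a randomized poly-time algorithm -/
theorem randPolyTime_of_ptf {F : ℕ × (ℕ × ℕ) × List (List Bool) → List Bool} (hF : PTF F) :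
    Crest.Randomized.RandPolyTime (fun q : List Bool × List Bool => F (parseInput q.1)) :=
  PTF.polyTimeComputable_pairEnc (PTF.comp hF (ptf_parseInput' PTF.fst))

end pt

end Crest.Agent.R300.Dec
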