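import Crest.Agent.R300.Dec.Row

/-!
# Row 300, machine side: polynomial time of the pieces of `Row`
-/

set_option autoImplicit false
set_option linter.dupNamespace false

namespace Crest.Agent.R300.Dec

open Crest.Agent.Lib.PT

variable {γ : Type} [PTCode γ]

theorem hit_eq_all (J y : List Bool) (m : ℕ) (hm : J.length ≤ m) :
    hit J y = (J.zip (y ++ List.replicate m false)).all fun p => !p.1 || p.2 := by
  induction J generalizing y m with
  | nil => simp
  | cons j J ih =>
    rw [hit_cons]
    cases y with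
    | nil =>
      obtain ⟨m, rfl⟩ : ∃ k, m = k + 1 := ⟨m - 1, by simp only [List.length_cons] at hm; omega⟩
      rw [List.nil_append, List.replicate_succ, List.zip_cons_cons, List.all_cons,
        List.tail_nil, List.headD_nil, ih [] m (by simpa using hm), List.nil_append]
    | cons b y =>
      rw [List.cons_append, List.zip_cons_cons, List.all_cons, List.tail_cons, List.headD_cons,
        ih y m (by simp only [List.length_cons] at hm; omega)]

theorem ptf_hit {J y : γ → List Bool} (hJ : PTF J) (hy : PTF y) :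
    PTF (fun c => hit (J c) (y c)) := by
  have h1 : PTF (fun c => y c ++ List.replicate (J c).length false) :=
    PTF.append hy (PTF.replicate (PTU.length hJ) (PTF.const false))
  have h2 : PTF (fun c => (J c).zip (y c ++ List.replicate (J c).length false)) := PTF.zip hJ h1
  refine (PTF.all (p := fun (_ : γ) (p : Bool × Bool) => !p.1 || p.2) h2 ?_).of_eq fun c => ?_
  · show PTF (fun q : γ × Bool × Bool => !q.2.1 || q.2.2)
    fun_prop
  · rw [← hit_eq_all _ _ _ le_rfl]

theorem PTPred.eqTrue {f : γ → Bool} (hf : PTF f) : PTPred (fun c => f c = true) :=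
  PTPred.eq hf (PTF.const true)

theorem ptf_dpInit {J : γ → List Bool} (hJ : PTF J) : PTF (fun c => dpInit (J c)) := by
  unfold dpInit
  refine PTF.tabulate (f := fun c i => if hit ((J c).drop (min i (J c).length)) [] = true then 1
    else 0) (PTU.succ (PTU.length hJ)) ?_
  have hJ' : PTF (fun q : γ × ℕ => J q.1) := PTF.comp hJ PTF.fst
  refine PTF.ite (PTPred.eqTrue (ptf_hit (PTF.drop (PTF.natMinUn PTF.snd (PTU.length hJ')) hJ')
    (PTF.const []))) (PTF.const 1) (PTF.const 0)

theorem ptf_dpStep {a c : γ → ℕ} {J : γ → List Bool} {s : γ → Bool} {r : γ → List ℕ}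
    (ha : PTF a) (hc : PTF c) (hJ : PTF J) (hs : PTF s) (hr : PTF r) :
    PTF (fun x => dpStep (a x) (c x) (J x) (s x) (r x)) := by
  unfold dpStep
  refine PTF.zipWith (f := fun x (j : Bool) (rr : ℕ × ℕ) =>
    (if s x = true then 0 else c x * rr.1) + (if s x = j then a x * rr.2 else 0)) hJ
    (PTF.zip hr (PTF.tail hr)) ?_
  have hs' : PTF (fun p : γ × Bool × ℕ × ℕ => s p.1) := PTF.comp hs PTF.fst
  have hc' : PTF (fun p : γ × Bool × ℕ × ℕ => c p.1) := PTF.comp hc PTF.fst
  have ha' : PTF (fun p : γ × Bool × ℕ × ℕ => a p.1) := PTF.comp ha PTF.fst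
  refine PTF.natAdd (PTF.ite (PTPred.eqTrue hs') (PTF.const 0) (PTF.natMul hc' (by fun_prop))) ?_
  exact PTF.ite (PTPred.eq hs' (by fun_prop)) (PTF.natMul ha' (by fun_prop)) (PTF.const 0)

theorem dpStep_bound (a c : ℕ) (J : List Bool) (s : Bool) (r : List ℕ) {B : ℕ}
    (h : ∀ x ∈ r, x ≤ B) : (dpStep a c J s r).length ≤ r.length ∧
    ∀ x ∈ dpStep a c J s r, x ≤ B * (a + c) := by
  unfold dpStep
  refine ⟨by rw [List.length_zipWith, List.length_zip]; omega, fun x hx => ?_⟩
  rw [List.mem_iff_getElem] at hx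
  obtain ⟨i, hi, rfl⟩ := hx
  rw [List.getElem_zipWith, List.getElem_zip]
  simp only [List.length_zipWith, List.length_zip, List.length_tail] at hi
  have h1 := h (r[i]'(by omega)) (List.getElem_mem _)
  have h2 := h (r[i + 1]'(by omega)) (List.getElem_mem _)
  rw [List.getElem_tail]
  have h3 := Nat.mul_le_mul_left c h1
  have h4 := Nat.mul_le_mul_left a h2
  have h5 : B * (a + c) = c * B + a * B := by ring
  rw [h5]
  refine Nat.add_le_add ?_ ?_
  · split_ifs
    · omega
    · exact h3
  · have h6 : ∀ (P : Prop) [Decidable P], (if P then a * r[i + 1]'(by omega) else 0) ≤ a * B := by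
      intro P _
      by_cases hP : P
      · rw [if_pos hP]; exact h4
      · rw [if_neg hP]; exact Nat.zero_le _
    exact h6 _

/-- size of the state of the dynamic program -/
theorem dp_bound (a c : ℕ) (J S : List Bool) :
    (S.foldr (dpStep a c J) (dpInit J)).length ≤ J.length + 1 ∧
    ∀ x ∈ S.foldr (dpStep a c J) (dpInit J), x ≤ (a + c) ^ S.length := by
  induction S with
  | nil =>
    rw [List.foldr_nil]
    refine ⟨by simp [dpInit], fun x hx => ?_⟩
    unfold dpInit at hx
    rw [List.mem_map] at hx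
    obtain ⟨i, _, rfl⟩ := hx
    split_ifs <;> simp
  | cons s S ih =>
    rw [List.foldr_cons, List.length_cons, pow_succ]
    obtain ⟨h1, h2⟩ := dpStep_bound a c J s _ ih.2
    exact ⟨h1.trans ih.1, h2⟩

theorem size_pow_le' (x k : ℕ) : (x ^ k).size ≤ k * x.size + 1 := by
  rw [Nat.size_le]
  have h : x ^ k ≤ (2 ^ x.size) ^ k := Nat.pow_le_pow_left (Nat.lt_size_self x).le k
  rw [← pow_mul, mul_comm] at h
  have h2 : 0 < 2 ^ (k * x.size) := by positivity
  rw [pow_succ]
  omega

theorem ptf_EcDP {a c : γ → ℕ} {S J : γ → List Bool}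
    (ha : PTF a) (hc : PTF c) (hS : PTF S) (hJ : PTF J) :
    PTF (fun x => EcDP (a x) (c x) (S x) (J x)) := by
  have hfold : PTF (fun x => (S x).foldr (dpStep (a x) (c x) (J x)) (dpInit (J x))) := by
    refine PTF.foldr (f := fun x s r => dpStep (a x) (c x) (J x) s r) hS ?_ (ptf_dpInit hJ)
      (B := fun x => ((J x).length + 1) *
        (2 * ((S x).length * ((a x + c x).size) + 1) + 1)) ?_ ?_
    · exact ptf_dpStep (PTF.comp ha PTF.fst) (PTF.comp hc PTF.fst) (PTF.comp hJ PTF.fst)
        (by fun_prop) (by fun_prop)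
    · have h1 : PB (fun x => (J x).length) := (PTU.length hJ).pb
      have h2 : PB (fun x => (S x).length) := (PTU.length hS).pb
      have h3 : PB (fun x => (a x + c x).size) := (PTF.natSizeUn (PTF.natAdd ha hc)).pb
      fun_prop
    · intro x i hi
      obtain ⟨h1, h2⟩ := dp_bound (a x) (c x) (J x) ((S x).drop i)
      refine (sz_list_le (m := (S x).length * ((a x + c x).size) + 1) fun y hy => ?_).trans
        (Nat.mul_le_mul_right _ h1)
      rw [sz_nat]
      refine (Nat.size_le_size (h2 y hy)).trans ((size_pow_le' _ _).trans ?_)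
      have : ((S x).drop i).length ≤ (S x).length := by rw [List.length_drop]; omega
      have := Nat.mul_le_mul_right (a x + c x).size this
      omega
  refine (PTF.optionGetD (PTF.head? hfold) (PTF.const 0)).of_eq fun x => ?_
  unfold EcDP
  rw [List.headD_eq_head?_getD]

theorem ptf_terms {a b K : γ → ℕ} {n : γ → ℕ} {w J : γ → List Bool} {th : γ → ℚ}
    (ha : PTF a) (hb : PTF b) (hn : PTU n) (hK : PTU K) (hw : PTF w) (hJ : PTF J) (hth : PTF th)
    (hB : PB (fun c => (n c + 1) ^ K c)) :
    PTF (fun c => terms (a c) (b c) (n c) (K c) (w c) (J c) (th c)) := by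
  unfold terms
  refine PTF.listCons (PTF.prodMk (PTF.replicate (PTU.sub hn (PTU.length hw)) (PTF.const false))
    (PTF.ratNeg hth)) ?_
  refine PTF.map (f := fun c (S : List Bool) => (S.drop (w c).length,
    (EcDP (a c) (b c - a c) S (J c) : ℚ) / (b c : ℚ) ^ n c))
    (PTF.filter (p := fun c (S : List Bool) => hit (S.take (w c).length) (w c))
      (ptf_masks hn hK hB) ?_) ?_
  · have hw' : PTF (fun q : γ × List Bool => w q.1) := PTF.comp hw PTF.fst
    exact ptf_hit (PTF.take (PTU.length hw') PTF.snd) hw'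
  · have hw' : PTF (fun q : γ × List Bool => w q.1) := PTF.comp hw PTF.fst
    have ha' : PTF (fun q : γ × List Bool => a q.1) := PTF.comp ha PTF.fst
    have hb' : PTF (fun q : γ × List Bool => b q.1) := PTF.comp hb PTF.fst
    have hJ' : PTF (fun q : γ × List Bool => J q.1) := PTF.comp hJ PTF.fst
    have hn' : PTU (fun q : γ × List Bool => n q.1) := PTU.comp hn PTF.fst
    refine PTF.prodMk (PTF.drop (PTU.length hw') PTF.snd) ?_
    refine PTF.ratDiv (PTF.ratNatCast (ptf_EcDP ha' (PTF.natSub hb' ha') PTF.snd hJ')) ?_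
    exact PTF.ratPow (PTF.ratNatCast hb') hn'

theorem ptf_orL {u v : γ → List Bool} (hu : PTF u) (hv : PTF v) :
    PTF (fun c => orL (u c) (v c)) :=
  PTF.zipWith (f := fun _ a b => a || b) hu hv (by fun_prop)

theorem ptf_rowOf {N d : γ → ℕ} {P : γ → List (List Bool × ℚ)} (hN : PTU N) (hd : PTU d)
    (hB : PB (fun c => (N c + 1) ^ d c)) (hP : PTF P) :
    PTF (fun c => rowOf (N c) (d c) (P c)) := by
  unfold rowOf
  refine PTF.map (f := fun c (R : List Bool) => ((P c).flatMap fun u =>
    ((P c).filter fun v => decide (orL u.1 v.1 = R)).map fun v => u.2 * v.2).sum)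
    (ptf_masks hN hd hB) ?_
  refine PTF.ratListSum ?_
  have hP' : PTF (fun q : γ × List Bool => P q.1) := PTF.comp hP PTF.fst
  refine PTF.flatMap (γ := γ × List Bool) (l := fun q => P q.1) (f := fun q u =>
    ((P q.1).filter fun v => decide (orL u.1 v.1 = q.2)).map fun v => u.2 * v.2) hP' ?_
  have hP'' : PTF (fun q : (γ × List Bool) × List Bool × ℚ => P q.1.1) :=
    PTF.comp hP (by fun_prop)
  refine PTF.map (γ := (γ × List Bool) × List Bool × ℚ)
    (l := fun q => (P q.1.1).filter fun v => decide (orL q.2.1 v.1 = q.1.2))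
    (f := fun q v => q.2.2 * v.2) ?_ ?_
  · refine PTF.filter (γ := (γ × List Bool) × List Bool × ℚ) (l := fun q => P q.1.1)
      (p := fun q v => decide (orL q.2.1 v.1 = q.1.2)) hP'' ?_
    exact PTF.beq (ptf_orL (by fun_prop) (by fun_prop)) (by fun_prop)
  · show PTF (fun q : ((γ × List Bool) × List Bool × ℚ) × List Bool × ℚ => q.1.2.2 * q.2.2)
    fun_prop

theorem ptu_pos {l : γ → List (List Bool)} {a : γ → List Bool} (hl : PTF l) (ha : PTF a) :
    PTU (fun c => pos (l c) (a c)) := by
  unfold pos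
  refine PTU.length (PTF.takeWhile (p := fun c b => decide (b ≠ a c)) hl ?_)
  exact (PTPred.eq (γ := γ × List Bool) PTF.snd (PTF.comp ha PTF.fst)).not.toPTF

theorem ptf_idxTab {N D : γ → ℕ} (hN : PTU N) (hD : PTU D)
    (hB : PB (fun c => (N c + 1) ^ (2 * D c))) : PTF (fun c => idxTab (N c) (D c)) := by
  have hB1 : PB (fun c => (N c + 1) ^ (D c)) :=
    hB.mono fun c => Nat.pow_le_pow_right (by omega) (by omega)
  have hm1 : PTF (fun c => masks (N c) (D c)) := ptf_masks hN hD hB1
  have hm2 : PTF (fun c => masks (N c) (2 * D c)) :=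
    ptf_masks hN (PTU.mul (PTU.const 2) hD) hB
  unfold idxTab
  refine PTF.map (f := fun c S => (masks (N c) (D c)).map fun S' =>
    pos (masks (N c) (2 * D c)) (orL S S')) hm1 ?_
  refine PTF.map (γ := γ × List Bool) (l := fun q => masks (N q.1) (D q.1)) (f := fun q S' =>
    pos (masks (N q.1) (2 * D q.1)) (orL q.2 S')) (PTF.comp hm1 PTF.fst) ?_
  refine Crest.Agent.Lib.PT.PTU.toPTF ?_
  exact ptu_pos (PTF.comp (g := fun c => masks (N c) (2 * D c))
    (f := fun q : (γ × List Bool) × List Bool => q.1.1) hm2 (by fun_prop))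
    (ptf_orL (by fun_prop) (by fun_prop))

end Crest.Agent.R300.Dec
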