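import Crest.Agent.R300.Dec.Prog
import Crest.Agent.R300.Dec.RowPT
import Crest.Agent.R300.Dec.Parse
import Crest.Agent.R300.SdpPTF

/-!
# Row 300, machine side: the decoder program is polynomial time
-/

set_option autoImplicit false
set_option linter.dupNamespace false

namespace Crest.Agent.R300.Dec

open Crest.Agent.Lib.PT

/-- parameter bound -/
theorem pow_parK_le' (n m : ℕ) (hm : 1 ≤ m) : (n + 1) ^ (64 * parK n m) ≤ m := by
  have h1 : n + 1 ≤ 2 ^ n.size := Nat.lt_size_self n
  calc (n + 1) ^ (64 * parK n m) ≤ (2 ^ n.size) ^ (64 * parK n m) := Nat.pow_le_pow_left h1 _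
    _ = 2 ^ (parK n m * (64 * n.size)) := by rw [← pow_mul]; congr 1; ring
    _ ≤ 2 ^ Nat.log 2 m := Nat.pow_le_pow_right (by norm_num) (Nat.div_mul_le_self _ _)
    _ ≤ m := Nat.pow_log_le_self 2 (by omega)

section ptf

variable {γ : Type} [PTCode γ]

theorem ptu_log {m : γ → ℕ} (hm : PTU m) : PTU (fun c => Nat.log 2 (m c)) :=
  PTU.of_eq (PTF.natMinUn (PTF.natLog (PTF.const 2) (PTU.toPTF hm)) hm)
    (fun c => min_eq_left (Nat.log_le_self 2 (m c)))

theorem ptu_parK {n m : γ → ℕ} (hn : PTF n) (hm : PTU m) :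
    PTU (fun c => parK (n c) (m c)) := by
  have h := ptu_log hm
  unfold parK
  refine PTU.of_eq (PTF.natMinUn (PTF.natDiv (PTU.toPTF h)
    (PTF.natMul (PTF.const 64) (PTU.toPTF (PTF.natSizeUn hn)))) h) (fun c => ?_)
  exact min_eq_left (Nat.div_le_self _ _)

theorem ptf_parTol {m : γ → ℕ} (hm : PTU m) : PTF (fun c => parTol (m c)) := by
  unfold parTol
  refine PTF.ratDiv (PTF.const 1) (PTF.ratPow (PTF.const 2) ?_)
  have h := ptu_log hm
  have h8 : PTU (fun c => Nat.log 2 (m c) / 8) :=
    PTU.of_eq (PTF.natMinUn (PTF.natDiv (PTU.toPTF h) (PTF.const 8)) h)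
      (fun c => min_eq_left (Nat.div_le_self _ _))
  exact PTU.mul (PTU.const 2) h8

theorem ptf_emp {J : γ → List Bool} {Ys : γ → List (List Bool)} (hJ : PTF J) (hY : PTF Ys) :
    PTF (fun c => emp (J c) (Ys c)) := by
  unfold emp
  refine PTF.ratDiv (PTF.ratNatCast (PTU.toPTF ?_)) (PTF.ratNatCast (PTU.toPTF (PTU.length hY)))
  refine PTU.countP (p := fun c y => hit (J c) y) hY ?_
  exact ptf_hit (PTF.comp hJ PTF.fst) PTF.snd

theorem ptf_statsOf {n K : γ → ℕ} {Ys : γ → List (List Bool)} (hn : PTU n) (hK : PTU K)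
    (hB : PB (fun c => (n c + 1) ^ K c)) (hY : PTF Ys) :
    PTF (fun c => statsOf (n c) (K c) (Ys c)) := by
  unfold statsOf
  refine PTF.map (f := fun c J => (J, emp J (Ys c))) (ptf_masks hn hK hB) ?_
  exact PTF.prodMk PTF.snd (ptf_emp PTF.snd (PTF.comp hY PTF.fst))

theorem ptf_unitRow {N d : γ → ℕ} (hN : PTU N) (hd : PTU d)
    (hB : PB (fun c => (N c + 1) ^ d c)) : PTF (fun c => unitRow (N c) (d c)) := by
  unfold unitRow
  refine PTF.map (f := fun c R => if R = List.replicate (N c) false then (1 : ℚ) else 0)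
    (ptf_masks hN hd hB) ?_
  refine PTF.ite (p := fun q : γ × List Bool => q.2 = List.replicate (N q.1) false)
    (PTPred.eq PTF.snd (PTF.replicate (PTU.comp hN PTF.fst) (PTF.const false)))
    (PTF.const 1) (PTF.const 0)

theorem ptf_consOf {m a b n K : γ → ℕ} {st : γ → List (List Bool × ℚ)} {w : γ → List Bool}
    (hm : PTU m) (ha : PTF a) (hb : PTF b) (hn : PTU n) (hK : PTU K)
    (hB : PB (fun c => (n c + 1) ^ (2 * (2 * K c)))) (hst : PTF st) (hw : PTF w) :
    PTF (fun c => consOf (m c) (a c) (b c) (n c) (K c) (st c) (w c)) := by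
  have hN : PTU (fun c => n c - (w c).length) := PTU.sub hn (PTU.length hw)
  have hd : PTU (fun c => 2 * (2 * K c)) := PTU.mul (PTU.const 2) (PTU.mul (PTU.const 2) hK)
  have hB1 : PB (fun c => (n c - (w c).length + 1) ^ (2 * (2 * K c))) :=
    hB.mono fun c => Nat.pow_le_pow_left (by omega) _
  have hB2 : PB (fun c => (n c + 1) ^ K c) :=
    hB.mono fun c => Nat.pow_le_pow_right (by omega) (by omega)
  unfold consOf
  refine PTF.listCons (PTF.prodMk (ptf_unitRow hN hd hB1) (PTF.prodMk (PTF.const 1)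
    (PTF.ratDiv (PTF.const 1) (PTF.ratNatCast (PTU.toPTF hm))))) ?_
  refine PTF.map (f := fun c Jt => (rowOf (n c - (w c).length) (2 * (2 * K c))
    (terms (a c) (b c) (n c) (K c) (w c) Jt.1 Jt.2), (0 : ℚ), parTol (m c))) hst ?_
  have hfst : PTF (fun q : γ × (List Bool × ℚ) => q.1) := PTF.fst
  refine PTF.prodMk (ptf_rowOf (N := fun q : γ × (List Bool × ℚ) => n q.1 - (w q.1).length)
    (d := fun q => 2 * (2 * K q.1))
    (P := fun q => terms (a q.1) (b q.1) (n q.1) (K q.1) (w q.1) q.2.1 q.2.2)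
    (PTU.comp hN hfst) (PTU.comp (n := fun c => 2 * (2 * K c)) hd hfst) (hB1.comp hfst) ?_)
    (PTF.prodMk (PTF.const 0) (PTF.comp (g := fun c => parTol (m c)) (ptf_parTol hm) hfst))
  exact ptf_terms (PTF.comp ha hfst) (PTF.comp hb hfst) (PTU.comp hn hfst) (PTU.comp hK hfst)
    (PTF.comp hw hfst) (by fun_prop) (by fun_prop) (hB2.comp hfst)

theorem ptf_solOf {m a b n K : γ → ℕ} {st : γ → List (List Bool × ℚ)} {w : γ → List Bool}
    (hm : PTU m) (ha : PTF a) (hb : PTF b) (hn : PTU n) (hK : PTU K)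
    (hB : PB (fun c => (n c + 1) ^ (2 * (2 * K c)))) (hst : PTF st) (hw : PTF w) :
    PTF (fun c => solOf (m c) (a c) (b c) (n c) (K c) (st c) (w c)) := by
  have hN : PTU (fun c => n c - (w c).length) := PTU.sub hn (PTU.length hw)
  have hd : PTU (fun c => 2 * (2 * K c)) := PTU.mul (PTU.const 2) (PTU.mul (PTU.const 2) hK)
  have hB1 : PB (fun c => (n c - (w c).length + 1) ^ (2 * (2 * K c))) :=
    hB.mono fun c => Nat.pow_le_pow_left (by omega) _
  unfold solOf
  exact PTF.sdpRun hm (PTU.length (ptf_masks hN hd hB1))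
    (ptf_idxTab hN (PTU.mul (PTU.const 2) hK) hB1) (ptf_consOf hm ha hb hn hK hB hst hw)

theorem ptf_nextBit {m a b n K : γ → ℕ} {st : γ → List (List Bool × ℚ)} {w : γ → List Bool}
    (hm : PTU m) (ha : PTF a) (hb : PTF b) (hn : PTU n) (hK : PTU K)
    (hB : PB (fun c => (n c + 1) ^ (2 * (2 * K c)))) (hst : PTF st) (hw : PTF w) :
    PTF (fun c => nextBit (m c) (a c) (b c) (n c) (K c) (st c) (w c)) := by
  have hN : PTU (fun c => n c - (w c).length) := PTU.sub hn (PTU.length hw)
  have hd : PTU (fun c => 2 * (2 * K c)) := PTU.mul (PTU.const 2) (PTU.mul (PTU.const 2) hK)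
  have hB1 : PB (fun c => (n c - (w c).length + 1) ^ (2 * (2 * K c))) :=
    hB.mono fun c => Nat.pow_le_pow_left (by omega) _
  have hsol := ptf_solOf hm ha hb hn hK hB hst hw
  have hmask := ptf_masks hN hd hB1
  have hN1 : PTU (fun c => n c - (w c).length - 1) := PTU.sub hN (PTU.const 1)
  have hp0 : PTU (fun c => pos (masks (n c - (w c).length) (2 * (2 * K c)))
      (List.replicate (n c - (w c).length) false)) :=
    ptu_pos hmask (PTF.replicate hN (PTF.const false))
  have hp1 : PTU (fun c => pos (masks (n c - (w c).length) (2 * (2 * K c)))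
      (true :: List.replicate (n c - (w c).length - 1) false)) :=
    ptu_pos hmask (PTF.listCons (PTF.const true) (PTF.replicate hN1 (PTF.const false)))
  unfold nextBit
  exact (PTPred.ratLt (PTF.getD hp0 hsol (PTF.const 0))
    (PTF.ratMul (PTF.const 2) (PTF.getD hp1 hsol (PTF.const 0)))).toPTF

/-- one round of the letter loop keeps the length under control -/
theorem loop_length (g : List Bool → Bool) (i : ℕ) :
    ((fun w => w ++ [g w])^[i] []).length = i := by
  induction i with
  | zero => rfl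
  | succ i ih => rw [Function.iterate_succ_apply', List.length_append, ih]; rfl

/-- **The decoder is polynomial time.** -/
theorem ptf_decodeW {a b n : γ → ℕ} {Ys : γ → List (List Bool)} (ha : PTF a) (hb : PTF b)
    (hn : PTF n) (hY : PTF Ys) : PTF (fun c => decodeW (a c) (b c) (n c) (Ys c)) := by
  have hm : PTU (fun c => (Ys c).length) := PTU.length hY
  have hN : PTU (fun c => min (n c) (Ys c).length) := PTF.natMinUn hn hm
  have hK : PTU (fun c => parK (min (n c) (Ys c).length) (Ys c).length) :=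
    ptu_parK (PTU.toPTF hN) hm
  have hBig : PB (fun c => (min (n c) (Ys c).length + 1) ^
      (2 * (2 * parK (min (n c) (Ys c).length) (Ys c).length))) := by
    refine PB.mono (g := fun c => (Ys c).length + 1) ?_ fun c => ?_
    · have := hm.pb
      fun_prop
    · rcases Nat.eq_zero_or_pos (Ys c).length with h | h
      · rw [h]; simp
      · refine le_trans (Nat.pow_le_pow_right (by omega) ?_)
          ((pow_parK_le' (min (n c) (Ys c).length) (Ys c).length h).trans (Nat.le_succ _))
        omega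
  have hB2 : PB (fun c => (min (n c) (Ys c).length + 1) ^
      parK (min (n c) (Ys c).length) (Ys c).length) :=
    hBig.mono fun c => Nat.pow_le_pow_right (by omega) (by omega)
  have hst := ptf_statsOf hN hK hB2 hY
  have hfst : PTF (fun q : γ × List Bool => q.1) := PTF.fst
  unfold decodeW decodeCore
  refine PTF.iterate' (f := fun c w => w ++ [nextBit (Ys c).length (a c) (b c)
    (min (n c) (Ys c).length) (parK (min (n c) (Ys c).length) (Ys c).length)
    (statsOf (min (n c) (Ys c).length) (parK (min (n c) (Ys c).length) (Ys c).length) (Ys c)) w])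
    (a := fun _ => []) hN ?_ (PTF.const []) (B := fun c => 3 * min (n c) (Ys c).length) ?_ ?_
  · refine PTF.append PTF.snd (PTF.listCons ?_ (PTF.const []))
    exact ptf_nextBit (PTU.comp (n := fun c => (Ys c).length) hm hfst) (PTF.comp ha hfst)
      (PTF.comp hb hfst) (PTU.comp (n := fun c => min (n c) (Ys c).length) hN hfst)
      (PTU.comp (n := fun c => parK (min (n c) (Ys c).length) (Ys c).length) hK hfst)
      (hBig.comp hfst) (PTF.comp (g := fun c => statsOf (min (n c) (Ys c).length)
        (parK (min (n c) (Ys c).length) (Ys c).length) (Ys c)) hst hfst) PTF.snd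
  · have := hN.pb
    fun_prop
  · intro c i hi
    rw [sz_listBool, loop_length]
    omega

end ptf

/-- the algorithm of S0457 -/
def decA (q : List Bool × List Bool) : List Bool :=
  decodeW (parseInput q.1).2.1.1 (parseInput q.1).2.1.2 (parseInput q.1).1 (parseInput q.1).2.2

theorem randPolyTime_decA : Crest.Randomized.RandPolyTime decA := by
  have h : PTF (fun x : ℕ × (ℕ × ℕ) × List (List Bool) => decodeW x.2.1.1 x.2.1.2 x.1 x.2.2) :=
    ptf_decodeW (by fun_prop) (by fun_prop) (by fun_prop) (by fun_prop)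
  exact randPolyTime_of_ptf h

end Crest.Agent.R300.Dec
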