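import Crest.Agent.R300.Dec.Bit
import Crest.Agent.R300.U.DecSound
import Crest.Agent.R300.U.Bridge
import Crest.Agent.R300.U.DecGlue

/-!
# Row 300, machine side: correctness of one decoding step (modulo the output of the solver)
-/

set_option autoImplicit false
set_option linter.dupNamespace false

namespace Crest.Agent.R300.Dec

open Crest.Agent.R300U (TT PE Prefix Data Ident dev xv mono)

theorem maskF_single {N : ℕ} (hN : 0 < N) :
    maskF ({(⟨0, hN⟩ : Fin N)} : Finset (Fin N)) = true :: List.replicate (N - 1) false := by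
  refine List.ext_getElem (by simp; omega) fun i h1 h2 => ?_
  rw [getElem_maskF]
  cases i with
  | zero => simp
  | succ i =>
    simp [Fin.ext_iff]

theorem TT_glue_real {a b n K : ℕ} (hab : a ≤ b) (hb : 0 < b) {w : List Bool} (hw : w.length ≤ n)
    (th : ℚ) {A : Finset ℕ} (hA : ∀ j ∈ A, j < n) (hK : A.card ≤ K)
    (z : Fin (n - w.length) → Bool) :
    TT ((a : ℝ) / (b : ℝ)) A (glue w z) - th =
      ∑ S, dvOf (n - w.length) (terms a b n K w (maskOf n A) th) S *
        (if ∀ i ∈ S, z i = true then 1 else 0) := by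
  apply Complex.ofReal_injective
  rw [TT_glue_sub hab hb hw th hA hK z, Complex.ofReal_sum]
  refine Finset.sum_congr rfl fun S _ => ?_
  rw [Complex.ofReal_mul]
  congr 1
  unfold mono
  split_ifs <;> simp

/-- the moment vector read off the solution -/
noncomputable def muOf (m a b n K : ℕ) (st : List (List Bool × ℚ)) (w : List Bool)
    (A : Finset (Fin (n - w.length))) : ℝ :=
  (((solOf m a b n K st w).getD (pos (masks (n - w.length) (2 * (2 * K))) (maskF A)) 0 : ℚ) : ℝ)

theorem nextBit_eq {m a b n K : ℕ} {st : List (List Bool × ℚ)} {w : List Bool}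
    (hN : 0 < n - w.length) :
    nextBit m a b n K st w = true ↔ muOf m a b n K st w ∅ < 2 * muOf m a b n K st w
      {(⟨0, hN⟩ : Fin (n - w.length))} := by
  unfold nextBit muOf
  rw [decide_eq_true_iff, maskF_empty, maskF_single]
  constructor
  · intro h; exact_mod_cast h
  · intro h; exact_mod_cast h

/-- what the solver delivers -/
structure SolOut (m a b n K : ℕ) (st : List (List Bool × ℚ)) (w : List Bool) : Prop where
  norm : |muOf m a b n K st w ∅ - 1| ≤ 3 / (m : ℝ)
  psd : ∀ c : Finset (Fin (n - w.length)) → ℝ, (∀ S, 2 * K < S.card → c S = 0) →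
      -(1 / (m : ℝ)) * ∑ S, c S ^ 2 ≤ ∑ S, ∑ T, c S * c T * muOf m a b n K st w (S ∪ T)
  data : ∀ Jt ∈ st, |((terms a b n K w Jt.1 Jt.2).map fun u =>
      ((terms a b n K w Jt.1 Jt.2).map fun v =>
        (u.2 : ℝ) * v.2 * muOf m a b n K st w (mset u.1 ∪ mset v.1)).sum).sum| ≤
          3 * ((parTol m : ℚ) : ℝ)

theorem parTol_eq (m : ℕ) : ((parTol m : ℚ) : ℝ) = ((1 / 2 : ℝ) ^ (Nat.log 2 m / 8)) ^ 2 := by
  unfold parTol
  push_cast
  rw [one_div, one_div, inv_pow, inv_pow, ← pow_mul, mul_comm]

theorem nextBit_of_solOut {n m K a b : ℕ} (hab : a ≤ b) (hb : 0 < b) (hK : 1 ≤ K)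
    (hpow : (n + 1) ^ (64 * K) ≤ 2 ^ Nat.log 2 m) (hL : 10000 ≤ Nat.log 2 m)
    (x : Fin n → Bool) (Ys : List (List Bool))
    (hstat : ∀ A : Finset ℕ, A.card ≤ K → (∀ j ∈ A, j < n) →
      0 ≤ ((emp (maskOf n A) Ys : ℚ) : ℝ) ∧ ((emp (maskOf n A) Ys : ℚ) : ℝ) ≤ 1 ∧
      |((emp (maskOf n A) Ys : ℚ) : ℝ) - TT ((a : ℝ) / (b : ℝ)) A x| ≤
        (1 / 2 : ℝ) ^ (Nat.log 2 m / 8))
    (hId : Ident n ((a : ℝ) / (b : ℝ)) K ((1 / 2) ^ (Nat.log 2 m / 9)) x)
    (w : List Bool) (hwx : ∀ i : Fin n, (i : ℕ) < w.length → w.getD i false = x i)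
    (ht : w.length < n) (hS : SolOut m a b n K (statsOf n K Ys) w) :
    nextBit m a b n K (statsOf n K Ys) w = x ⟨w.length, ht⟩ := by
  have hm : 1 ≤ m := by
    by_contra h
    have : m = 0 := by omega
    subst this
    simp at hL
  have hN : 0 < n - w.length := by omega
  have hbR : (0 : ℝ) < b := by exact_mod_cast hb
  have key := R300U.step_sound_of (x := x) (t := w.length) (N := n - w.length) (by omega)
    (fun N D μ ε hε h0 hpsd hδ => by
      have := R300U.exists_PE (N := N) (D := D) μ ε hε h0 hpsd (by exact_mod_cast hδ)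
      exact_mod_cast this)
    (K := K) (m := m) hK ht (p := (a : ℝ) / (b : ℝ)) (by positivity)
    (by rw [div_le_one hbR]; exact_mod_cast hab) (β₁ := (1 / 2 : ℝ) ^ (Nat.log 2 m / 8))
    (by positivity) (pow_le_one₀ (by norm_num) (by norm_num))
    (fun E hP hD => hId E w.length ht hP (hD.mono le_rfl (eight_beta_le hL)))
    (mu := muOf m a b n K (statsOf n K Ys) w) (three_div_le hL) hS.norm hS.psd
    (by
      have := delta_le (n := n) (N := n - w.length) (m := m) (K := K) (by omega) (by omega) hm hpow hL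
      rw [show 2 * (2 * K) = 4 * K by ring] at this
      exact this)
    (gl := glue w)
    (fun y i hi => by unfold glue; rw [dif_pos hi]; exact hwx i hi)
    (fun y i hi => by unfold glue; rw [dif_neg hi])
    (co := fun A S => dvOf (n - w.length) (terms a b n K w (maskOf n A) (emp (maskOf n A) Ys)) S +
      if S = ∅ then ((emp (maskOf n A) Ys : ℚ) : ℝ) else 0)
    (That := fun A => ((emp (maskOf n A) Ys : ℚ) : ℝ))
    (fun A _ _ S hS' => by
      have h1 := dvOf_eq_zero (N := n - w.length) (K := K)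
        (terms_shape (a := a) (b := b) (K := K) (J := maskOf n A) (th := emp (maskOf n A) Ys)
          (n := n) (w := w) (by omega)) S hS'
      have h2 : S ≠ ∅ := by
        rintro rfl
        simp at hS'
      simp only [h1, if_neg h2, add_zero])
    (fun A hA1 hA2 y => by
      have h1 := TT_glue_real hab hb (w := w) (by omega) (emp (maskOf n A) Ys) hA2 hA1 y
      have h2 : TT ((a : ℝ) / (b : ℝ)) A (glue w y) = ((emp (maskOf n A) Ys : ℚ) : ℝ) +
          ∑ S, dvOf (n - w.length) (terms a b n K w (maskOf n A) (emp (maskOf n A) Ys)) S *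
          (if ∀ i ∈ S, y i = true then 1 else 0) := by linarith
      rw [h2]
      simp only [add_mul, Finset.sum_add_distrib]
      rw [add_comm]
      congr 1
      rw [Finset.sum_eq_single ∅]
      · simp
      · intro S _ hS'; rw [if_neg hS']; simp
      · simp)
    (fun A hA1 hA2 => hstat A hA1 hA2)
    (fun A hA1 hA2 => by
      have h1 := hS.data (maskOf n A, emp (maskOf n A) Ys) (by
        unfold statsOf
        rw [List.mem_map]
        exact ⟨maskOf n A, mem_masks.2 ⟨length_maskOf n A, by rw [count_maskOf hA2]; exact hA1⟩, rfl⟩)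
      rw [← sum_dvOf₂, parTol_eq] at h1
      simpa only [add_sub_cancel_right] using h1)
    hN
  rw [← nextBit_eq hN] at key
  cases hb1 : nextBit m a b n K (statsOf n K Ys) w <;> cases hx : x ⟨w.length, ht⟩ <;>
    simp_all

end Crest.Agent.R300.Dec
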