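import Crest.Agent.R300.Dec.Prog
import Crest.Agent.R300.Dec.MaskSet
import Crest.Agent.R300.Dec.Param
import Crest.Agent.R300.Dec.Step

/-!
# Row 300, machine side: what the solver returns
-/

set_option autoImplicit false
set_option linter.dupNamespace false

namespace Crest.Agent.R300.Dec

open Finset

/-! ### lists and sums -/

theorem sum_range_getD' {α : Type} (L : List α) (a : α) (g : α → ℝ) :
    ∑ k ∈ range L.length, g (L.getD k a) = (L.map g).sum := by
  induction L with
  | nil => simp
  | cons x L ih =>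
    rw [List.length_cons, Finset.sum_range_succ', List.map_cons, List.sum_cons, ← ih]
    simp [add_comm]

theorem sum_zip_getD {α : Type} (L : List α) (a : α) (row : List ℚ) (h : row.length = L.length)
    (μ : α → ℝ) : ∑ k ∈ range L.length, (row.getD k 0 : ℝ) * μ (L.getD k a)
      = (List.zipWith (fun (r : ℚ) (R : α) => (r : ℝ) * μ R) row L).sum := by
  induction L generalizing row with
  | nil =>
    have : row = [] := List.length_eq_zero_iff.1 h
    subst this; simp
  | cons x L ih =>
    cases row with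
    | nil => simp at h
    | cons r row =>
      rw [List.length_cons, Finset.sum_range_succ', List.zipWith_cons_cons, List.sum_cons,
        ← ih row (by simpa using h)]
      simp [add_comm]

theorem pos_getElem {l : List (List Bool)} (hl : l.Nodup) {k : ℕ} (hk : k < l.length) :
    pos l l[k] = k := by
  have h1 : pos l l[k] < l.length := pos_lt (List.getElem_mem hk)
  have h2 := getD_pos (List.getElem_mem hk)
  rw [List.getD_eq_getElem _ _ h1] at h2
  exact (List.Nodup.getElem_inj_iff hl).1 h2

theorem pos_of_not_mem {l : List (List Bool)} {a : List Bool} (h : a ∉ l) : pos l a = l.length := by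
  unfold pos
  rw [List.takeWhile_eq_self_iff.2]
  intro b hb
  rw [decide_eq_true_eq]
  rintro rfl
  exact h hb

theorem orL_comm (u v : List Bool) : orL u v = orL v u := by
  unfold orL
  rw [List.zipWith_comm]
  congr 1
  funext a b
  exact Bool.or_comm _ _

/-! ### masks of the terms -/

theorem terms_masks {a b n K : ℕ} {w J : List Bool} {th : ℚ} (_hw : w.length ≤ n)
    {u : List Bool × ℚ} (hu : u ∈ terms a b n K w J th) :
    u.1.length = n - w.length ∧ u.1.count true ≤ K := by
  unfold terms at hu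
  rcases List.mem_cons.1 hu with rfl | hu
  · simp [List.count_replicate]
  · rw [List.mem_map] at hu
    obtain ⟨S, hS, rfl⟩ := hu
    have hS' := mem_masks.1 (List.mem_of_mem_filter hS)
    refine ⟨by simp [hS'.1], ?_⟩
    exact ((List.drop_sublist _ _).count_le _).trans hS'.2

theorem terms_orL_mem {a b n K : ℕ} {w J : List Bool} {th : ℚ} (hw : w.length ≤ n) :
    ∀ u ∈ terms a b n K w J th, ∀ v ∈ terms a b n K w J th,
      orL u.1 v.1 ∈ masks (n - w.length) (2 * (2 * K)) := by
  intro u hu v hv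
  have h1 := terms_masks hw hu
  have h2 := terms_masks hw hv
  rw [mem_masks]
  refine ⟨length_orL h1.1 h2.1, ?_⟩
  have := count_orL_le u.1 v.1
  omega

/-! ### the moment vector -/

/-- the moments of a solution, as a function of masks -/
noncomputable def muL (N d : ℕ) (v : List ℚ) (R : List Bool) : ℝ :=
  ((v.getD (pos (masks N d) R) 0 : ℚ) : ℝ)

theorem dotQ_eq_mu {N d : ℕ} {v row : List ℚ} (hv : v.length = (masks N d).length)
    (hr : row.length = (masks N d).length) :
    ((dotQ row v : ℚ) : ℝ)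
      = (List.zipWith (fun (r : ℚ) (R : List Bool) => (r : ℝ) * muL N d v R) row (masks N d)).sum := by
  rw [dotQ_eq hr hv, ← sum_zip_getD (masks N d) [] row hr]
  push_cast
  refine Finset.sum_congr rfl fun k hk => ?_
  have hk' : k < (masks N d).length := Finset.mem_range.1 hk
  unfold muL
  rw [List.getD_eq_getElem (masks N d) _ hk', pos_getElem (nodup_masks N d) hk']

/-- the row of the square against the moments of a solution -/
theorem dotQ_rowOf {N d : ℕ} {v : List ℚ} (hv : v.length = (masks N d).length)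
    {P : List (List Bool × ℚ)} (hP : ∀ u ∈ P, ∀ v ∈ P, orL u.1 v.1 ∈ masks N d) :
    ((dotQ (rowOf N d P) v : ℚ) : ℝ)
      = (P.map fun u => (P.map fun v' => ((u.2 : ℝ) * v'.2) * muL N d v (orL u.1 v'.1)).sum).sum := by
  rw [dotQ_eq_mu hv (length_rowOf N d P), sum_rowOf hP]

theorem unitRow_sum {N d : ℕ} (μ : List Bool → ℝ) :
    (List.zipWith (fun (r : ℚ) (R : List Bool) => (r : ℝ) * μ R) (unitRow N d) (masks N d)).sum
      = μ (List.replicate N false) := by
  unfold unitRow
  rw [List.zipWith_map_left, zipWith_diag]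
  have hmem : List.replicate N false ∈ masks N d := by
    rw [mem_masks]; simp [List.count_replicate]
  have hnd := nodup_masks N d
  revert hmem hnd
  generalize masks N d = l
  generalize List.replicate N false = e
  intro hmem hnd
  induction l with
  | nil => simp at hmem
  | cons R l ih =>
    rw [List.nodup_cons] at hnd
    rw [List.map_cons, List.sum_cons]
    by_cases h : R = e
    · subst h
      have : (l.map fun a => (((if a = R then (1 : ℚ) else 0) : ℚ) : ℝ) * μ a).sum = 0 := by
        apply List.sum_eq_zero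
        intro x hx
        rw [List.mem_map] at hx
        obtain ⟨a, ha, rfl⟩ := hx
        have hne : a ≠ R := fun h => hnd.1 (by rw [← h]; exact ha)
        rw [if_neg hne]
        simp
      rw [this]
      simp
    · rw [ih ((List.mem_cons.1 hmem).resolve_left fun e' => h e'.symm) hnd.2, if_neg h]
      simp

theorem length_unitRow (N d : ℕ) : (unitRow N d).length = (masks N d).length := by
  unfold unitRow; rw [List.length_map]

theorem dotQ_unitRow {N d : ℕ} {v : List ℚ} (hv : v.length = (masks N d).length) :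
    ((dotQ (unitRow N d) v : ℚ) : ℝ) = muL N d v (List.replicate N false) := by
  rw [dotQ_eq_mu hv (length_unitRow N d), unitRow_sum]

/-! ### the index table -/

theorem idxTab_length (N D : ℕ) : (idxTab N D).length = (masks N D).length := by
  unfold idxTab; rw [List.length_map]

theorem idxf_idxTab {N D i j : ℕ} (hi : i < (masks N D).length) (hj : j < (masks N D).length) :
    idxf (idxTab N D) i j
      = pos (masks N (2 * D)) (orL ((masks N D).getD i []) ((masks N D).getD j [])) := by
  unfold idxf idxTab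
  rw [List.getD_eq_getElem (List.map _ _) _ (by simpa using hi), List.getElem_map,
    List.getD_eq_getElem (List.map _ _) _ (by simpa using hj), List.getElem_map,
    List.getD_eq_getElem _ _ hi, List.getD_eq_getElem _ _ hj]

theorem orL_mem {N D : ℕ} {S T : List Bool} (hS : S ∈ masks N D) (hT : T ∈ masks N D) :
    orL S T ∈ masks N (2 * D) := by
  rw [mem_masks] at *
  refine ⟨length_orL hS.1 hT.1, ?_⟩
  have := count_orL_le S T
  omega

theorem getD_mem_of_lt {α : Type} {l : List α} {i : ℕ} {a : α} (h : i < l.length) :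
    l.getD i a ∈ l := by
  rw [List.getD_eq_getElem _ _ h]
  exact List.getElem_mem h

theorem idxTab_ok (N D : ℕ) : ∀ i < (idxTab N D).length, ∀ j < (idxTab N D).length,
    idxf (idxTab N D) i j < (masks N (2 * D)).length ∧
      idxf (idxTab N D) i j = idxf (idxTab N D) j i := by
  intro i hi j hj
  rw [idxTab_length] at hi hj
  rw [idxf_idxTab hi hj, idxf_idxTab hj hi, orL_comm]
  exact ⟨pos_lt (orL_mem (getD_mem_of_lt hj) (getD_mem_of_lt hi)), rfl⟩

/-! ### the true solution -/

/-- moments of the word `z` -/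
noncomputable def uTrue (N d : ℕ) (z : List Bool) (k : ℕ) : ℝ :=
  if hit ((masks N d).getD k []) z = true then 1 else 0

theorem uTrue_pos {N d : ℕ} {R z : List Bool} (hR : R ∈ masks N d) :
    uTrue N d z (pos (masks N d) R) = if hit R z = true then 1 else 0 := by
  unfold uTrue
  rw [getD_pos hR]

theorem uTrue_abs (N d : ℕ) (z : List Bool) (k : ℕ) : |uTrue N d z k| ≤ 1 := by
  unfold uTrue
  split_ifs <;> simp

theorem uTrue_psd (N D : ℕ) (z : List Bool) (c : ℕ → ℝ) :
    0 ≤ ∑ i ∈ range (idxTab N D).length, ∑ j ∈ range (idxTab N D).length,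
      c i * c j * uTrue N (2 * D) z (idxf (idxTab N D) i j) := by
  have h : ∑ i ∈ range (idxTab N D).length, ∑ j ∈ range (idxTab N D).length,
      c i * c j * uTrue N (2 * D) z (idxf (idxTab N D) i j)
      = (∑ i ∈ range (idxTab N D).length, c i * (if hit ((masks N D).getD i []) z = true then 1 else 0)) ^ 2 := by
    rw [sq, Finset.sum_mul_sum]
    refine Finset.sum_congr rfl fun i hi => Finset.sum_congr rfl fun j hj => ?_
    rw [Finset.mem_range, idxTab_length] at hi hj
    have hSi := getD_mem_of_lt (a := ([] : List Bool)) hi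
    have hSj := getD_mem_of_lt (a := ([] : List Bool)) hj
    rw [idxf_idxTab hi hj, uTrue_pos (orL_mem hSi hSj),
      hit_orL ((mem_masks.1 hSi).1.trans (mem_masks.1 hSj).1.symm)]
    cases hit ((masks N D).getD i []) z <;> cases hit ((masks N D).getD j []) z <;> simp
  rw [h]
  exact sq_nonneg _

theorem uTrue_row {N d : ℕ} {row : List ℚ} (hr : row.length = (masks N d).length) (z : List Bool) :
    ∑ k ∈ range (masks N d).length, (row.getD k 0 : ℝ) * uTrue N d z k
      = (List.zipWith (fun (r : ℚ) (R : List Bool) => (r : ℝ) * (if hit R z = true then 1 else 0))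
          row (masks N d)).sum := by
  rw [← sum_zip_getD (masks N d) [] row hr]
  rfl

theorem uTrue_rowOf {N d : ℕ} {P : List (List Bool × ℚ)}
    (hP : ∀ u ∈ P, ∀ v ∈ P, orL u.1 v.1 ∈ masks N d) (hP1 : ∀ u ∈ P, u.1.length = N) (z : List Bool) :
    ∑ k ∈ range (masks N d).length, ((rowOf N d P).getD k 0 : ℝ) * uTrue N d z k = evalT P z ^ 2 := by
  rw [uTrue_row (length_rowOf N d P), sum_rowOf hP]
  unfold evalT
  rw [sq, ← List.sum_map_mul_left]
  congr 1
  refine List.map_congr_left fun u hu => ?_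
  rw [mul_comm (List.sum _) _, ← List.sum_map_mul_left]
  congr 1
  refine List.map_congr_left fun v hv => ?_
  rw [hit_orL ((hP1 u hu).trans (hP1 v hv).symm)]
  cases hit u.1 z <;> cases hit v.1 z <;> simp

/-! ### sizes -/

theorem parTol_ge {m : ℕ} (hm : 1 ≤ m) : 1 / (m : ℚ) ≤ parTol m := by
  unfold parTol
  have h1 : 2 ^ (2 * (Nat.log 2 m / 8)) ≤ m := by
    refine le_trans (Nat.pow_le_pow_right (by norm_num) ?_) (Nat.pow_log_le_self 2 (by omega))
    omega
  have h2 : ((2 : ℚ) ^ (2 * (Nat.log 2 m / 8))) ≤ m := by exact_mod_cast h1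
  exact one_div_le_one_div_of_le (by positivity) h2

theorem pow_bounds {n m K : ℕ} (hK : (n + 1) ^ (64 * K) ≤ 2 ^ Nat.log 2 m)
    (hm : 10000 ≤ Nat.log 2 m) : 1 ≤ m ∧ (n + 1) ^ (4 * K) ≤ m ∧ (1 + (n + 1) ^ K) ^ 4 ≤ m := by
  have hm1 : 1 ≤ m := by
    rcases Nat.eq_zero_or_pos m with h | h
    · subst h; simp at hm
    · exact h
  have h2 : 2 ^ Nat.log 2 m ≤ m := Nat.pow_log_le_self 2 (by omega)
  have h3 : (n + 1) ^ (64 * K) ≤ m := hK.trans h2
  refine ⟨hm1, le_trans (Nat.pow_le_pow_right (by omega) (by omega)) h3, ?_⟩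
  set x := (n + 1) ^ K with hx
  have hx1 : 1 ≤ x := Nat.one_le_pow _ _ (by omega)
  have e : (n + 1) ^ (64 * K) = x ^ 64 := by rw [hx, ← pow_mul, mul_comm K 64]
  rcases Nat.lt_or_ge x 2 with h | h
  · have : x = 1 := by omega
    rw [this]
    calc (1 + 1) ^ 4 ≤ 2 ^ Nat.log 2 m := by
          have : (2 : ℕ) ^ 4 ≤ 2 ^ Nat.log 2 m := Nat.pow_le_pow_right (by norm_num) (by omega)
          simpa using this
      _ ≤ m := h2
  · calc (1 + x) ^ 4 ≤ (x * x) ^ 4 := Nat.pow_le_pow_left (by nlinarith) 4
      _ = x ^ 8 := by ring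
      _ ≤ x ^ 64 := Nat.pow_le_pow_right (by omega) (by norm_num)
      _ ≤ m := by rw [← e]; exact h3

theorem dotQ_unitRow_self (N d : ℕ) : ((dotQ (unitRow N d) (unitRow N d) : ℚ) : ℝ) = 1 := by
  rw [dotQ_unitRow (length_unitRow N d)]
  unfold muL unitRow
  have hmem : List.replicate N false ∈ masks N d := by
    rw [mem_masks]; simp [List.count_replicate]
  have hp := pos_lt hmem
  rw [List.getD_eq_getElem _ _ (by simpa using hp), List.getElem_map]
  have := getD_pos hmem
  rw [List.getD_eq_getElem _ _ hp] at this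
  rw [if_pos this]
  norm_num

/-- **the output of the solver, in terms of masks** -/
theorem solOut_masks {m a b n K : ℕ} {st : List (List Bool × ℚ)} {w z : List Bool}
    (hw : w.length + z.length = n) (hab : a ≤ b) (hb : 0 < b)
    (hst : ∀ Jt ∈ st, Jt.1.length = n ∧ Jt.1.count true ≤ K ∧
      ((Jt.2 : ℝ) - eT ((a : ℝ) / (b : ℝ)) (w ++ z) Jt.1) ^ 2 ≤ parTol m)
    (hrow : ∀ Jt ∈ st, dotQ (rowOf (n - w.length) (2 * (2 * K)) (terms a b n K w Jt.1 Jt.2))
      (rowOf (n - w.length) (2 * (2 * K)) (terms a b n K w Jt.1 Jt.2)) ≤ (m : ℚ))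
    (hK : (n + 1) ^ (64 * K) ≤ 2 ^ Nat.log 2 m) (hm : 10000 ≤ Nat.log 2 m) :
    |muL (n - w.length) (2 * (2 * K)) (solOf m a b n K st w)
        (List.replicate (n - w.length) false) - 1| ≤ 3 / m ∧
    (∀ R, |muL (n - w.length) (2 * (2 * K)) (solOf m a b n K st w) R| ≤ 1) ∧
    (∀ c : List Bool → ℝ, -(1 / (m : ℝ)) * ((masks (n - w.length) (2 * K)).map fun S => c S ^ 2).sum
      ≤ ((masks (n - w.length) (2 * K)).map fun S => ((masks (n - w.length) (2 * K)).map fun T =>
          c S * c T * muL (n - w.length) (2 * (2 * K)) (solOf m a b n K st w) (orL S T)).sum).sum) ∧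
    (∀ Jt ∈ st, |((terms a b n K w Jt.1 Jt.2).map fun u => ((terms a b n K w Jt.1 Jt.2).map fun v =>
      ((u.2 : ℝ) * v.2) * muL (n - w.length) (2 * (2 * K)) (solOf m a b n K st w)
        (orL u.1 v.1)).sum).sum| ≤ 3 * parTol m) := by
  obtain ⟨hm1, hm2, hm3⟩ := pow_bounds hK hm
  set N := n - w.length with hN
  have hwn : w.length ≤ n := by omega
  have hz : z.length = N := by omega
  have hNn : N ≤ n := by omega
  have hmr : (0 : ℝ) < m := by exact_mod_cast hm1
  have hlenK : (masks N (2 * (2 * K))).length ≤ m := by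
    refine (length_masks_le _ _).trans ?_
    refine le_trans (Nat.pow_le_pow_left (by omega : N + 1 ≤ n + 1) _) ?_
    have : 2 * (2 * K) = 4 * K := by ring
    rw [this]; exact hm2
  have hlenD : (idxTab N (2 * K)).length ≤ m := by
    rw [idxTab_length]
    refine (length_masks_le _ _).trans ?_
    refine le_trans (Nat.pow_le_pow_left (by omega : N + 1 ≤ n + 1) _) ?_
    exact le_trans (Nat.pow_le_pow_right (by omega) (by omega : 2 * K ≤ 4 * K)) hm2
  have hP : ∀ Jt : List Bool × ℚ, ∀ u ∈ terms a b n K w Jt.1 Jt.2, ∀ v ∈ terms a b n K w Jt.1 Jt.2,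
      orL u.1 v.1 ∈ masks N (2 * (2 * K)) := fun Jt => terms_orL_mem hwn
  have hspec := sdpRun_spec (G := m) (K := (masks N (2 * (2 * K))).length)
    (idx := idxTab N (2 * K)) (cons := consOf m a b n K st w) hm1 hlenK hlenD
    (by
      intro c hc
      unfold consOf at hc
      rcases List.mem_cons.1 hc with rfl | hc
      · exact length_unitRow _ _
      · rw [List.mem_map] at hc
        obtain ⟨Jt, _, rfl⟩ := hc
        exact length_rowOf _ _ _)
    (by
      intro c hc
      unfold consOf at hc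
      rcases List.mem_cons.1 hc with rfl | hc
      · have h1 : dotQ (unitRow N (2 * (2 * K))) (unitRow N (2 * (2 * K))) = 1 := by
          exact_mod_cast dotQ_unitRow_self N (2 * (2 * K))
        show dotQ (unitRow N (2 * (2 * K))) (unitRow N (2 * (2 * K))) ≤ m
        rw [h1]
        exact_mod_cast hm1
      · rw [List.mem_map] at hc
        obtain ⟨Jt, hJt, rfl⟩ := hc
        exact hrow Jt hJt)
    (by
      intro c hc
      unfold consOf at hc
      rcases List.mem_cons.1 hc with rfl | hc
      · exact le_rfl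
      · rw [List.mem_map] at hc
        obtain ⟨Jt, _, rfl⟩ := hc
        exact parTol_ge hm1)
    (idxTab_ok N (2 * K)) (u := uTrue N (2 * (2 * K)) z) (fun k _ => uTrue_abs _ _ _ _)
    (by
      intro c hc
      unfold consOf at hc
      rcases List.mem_cons.1 hc with rfl | hc
      · show |∑ k ∈ range (masks N (2 * (2 * K))).length,
          ((unitRow N (2 * (2 * K))).getD k 0 : ℝ) * uTrue N (2 * (2 * K)) z k - ((1 : ℚ) : ℝ)| ≤ _
        rw [uTrue_row (length_unitRow _ _), unitRow_sum (fun R => if hit R z = true then (1 : ℝ) else 0),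
          hit_replicate_false]
        push_cast
        simp
      · rw [List.mem_map] at hc
        obtain ⟨Jt, hJt, rfl⟩ := hc
        obtain ⟨h1, h2, h3⟩ := hst Jt hJt
        show |∑ k ∈ range (masks N (2 * (2 * K))).length,
          ((rowOf N (2 * (2 * K)) (terms a b n K w Jt.1 Jt.2)).getD k 0 : ℝ)
            * uTrue N (2 * (2 * K)) z k - ((0 : ℚ) : ℝ)| ≤ ((parTol m : ℚ) : ℝ)
        rw [uTrue_rowOf (hP Jt) (fun u hu => (terms_masks hwn hu).1),
          evalT_terms hab hb Jt.2 hw h1 h2]
        push_cast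
        rw [sub_zero, abs_of_nonneg (sq_nonneg _)]
        refine le_trans (le_of_eq ?_) h3
        ring)
    (uTrue_psd N (2 * K) z)
  obtain ⟨s1, s2, s3, s4⟩ := hspec
  change (solOf m a b n K st w).length = _ at s1
  change ∀ k < (masks N (2 * (2 * K))).length, |((solOf m a b n K st w).getD k 0 : ℝ)| ≤ 1 at s2
  change ∀ c ∈ consOf m a b n K st w, |residQ (solOf m a b n K st w) c| ≤ 3 * c.2.2 at s3
  change ∀ c : ℕ → ℝ, -(1 / (m : ℝ)) * ∑ i ∈ range (idxTab N (2 * K)).length, c i ^ 2
      ≤ ∑ i ∈ range (idxTab N (2 * K)).length, ∑ j ∈ range (idxTab N (2 * K)).length,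
        c i * c j * ((solOf m a b n K st w).getD (idxf (idxTab N (2 * K)) i j) 0 : ℝ) at s4
  set v := solOf m a b n K st w with hv
  refine ⟨?_, ?_, ?_, ?_⟩
  · have h := s3 (unitRow N (2 * (2 * K)), 1, 1 / (m : ℚ)) (by unfold consOf; exact List.mem_cons_self)
    have h' : |((dotQ (unitRow N (2 * (2 * K))) v : ℚ) : ℝ) - 1| ≤ 3 * (1 / (m : ℝ)) := by
      have := (Rat.cast_le (K := ℝ)).2 h
      unfold residQ at this
      push_cast at this
      exact this
    rw [dotQ_unitRow s1] at h'
    refine h'.trans (le_of_eq ?_)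
    ring
  · intro R
    unfold muL
    rcases lt_or_ge (pos (masks N (2 * (2 * K))) R) (masks N (2 * (2 * K))).length with h | h
    · exact s2 _ h
    · rw [List.getD_eq_default _ _ (by rw [s1]; exact h)]
      simp
  · intro c
    have h := s4 (fun i => c ((masks N (2 * K)).getD i []))
    rw [idxTab_length] at h
    rw [← sum_range_getD' (masks N (2 * K)) [] (fun S => c S ^ 2),
      ← sum_range_getD' (masks N (2 * K)) [] (fun S => ((masks N (2 * K)).map fun T =>
          c S * c T * muL N (2 * (2 * K)) v (orL S T)).sum)]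
    refine h.trans (le_of_eq ?_)
    refine Finset.sum_congr rfl fun i hi => ?_
    rw [← sum_range_getD' (masks N (2 * K)) [] (fun T => c ((masks N (2 * K)).getD i []) * c T *
      muL N (2 * (2 * K)) v (orL ((masks N (2 * K)).getD i []) T))]
    refine Finset.sum_congr rfl fun j hj => ?_
    rw [Finset.mem_range] at hi hj
    unfold muL
    rw [idxf_idxTab hi hj]
  · intro Jt hJt
    have h := s3 (rowOf N (2 * (2 * K)) (terms a b n K w Jt.1 Jt.2), 0, parTol m) (by
      unfold consOf
      refine List.mem_cons_of_mem _ ?_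
      rw [List.mem_map]
      exact ⟨Jt, hJt, rfl⟩)
    have h' : |((dotQ (rowOf N (2 * (2 * K)) (terms a b n K w Jt.1 Jt.2)) v : ℚ) : ℝ)|
        ≤ 3 * (parTol m : ℝ) := by
      have := (Rat.cast_le (K := ℝ)).2 h
      unfold residQ at this
      push_cast at this
      rw [sub_zero] at this
      exact this
    rw [dotQ_rowOf s1 (hP Jt)] at h'
    exact h'

/-! ### in terms of sets -/

theorem muOf_eq (m a b n K : ℕ) (st : List (List Bool × ℚ)) (w : List Bool)
    (A : Finset (Fin (n - w.length))) : muOf m a b n K st w A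
      = muL (n - w.length) (2 * (2 * K)) (solOf m a b n K st w) (maskF A) := rfl

theorem muL_orL {N d : ℕ} {v : List ℚ} {S T : List Bool} (hS : S.length = N) (hT : T.length = N) :
    muL N d v (orL S T) = muL N d v (maskF ((mset S : Finset (Fin N)) ∪ mset T)) := by
  rw [maskF_union, maskF_mset hS, maskF_mset hT]

/-- **the output of the solver** (helper846's P5b), row norms as a hypothesis -/
theorem solOut' {m a b n K : ℕ} {st : List (List Bool × ℚ)} {w : List Bool}
    (hw : w.length ≤ n) (z : Fin (n - w.length) → Bool) (hab : a ≤ b) (hb : 0 < b)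
    (hst : ∀ Jt ∈ st, Jt.1.length = n ∧ Jt.1.count true ≤ K ∧
      ((Jt.2 : ℝ) - eT ((a : ℝ) / (b : ℝ)) (w ++ List.ofFn z) Jt.1) ^ 2 ≤ parTol m)
    (hrow : ∀ Jt ∈ st, dotQ (rowOf (n - w.length) (2 * (2 * K)) (terms a b n K w Jt.1 Jt.2))
      (rowOf (n - w.length) (2 * (2 * K)) (terms a b n K w Jt.1 Jt.2)) ≤ (m : ℚ))
    (hK : (n + 1) ^ (64 * K) ≤ 2 ^ Nat.log 2 m) (hm : 10000 ≤ Nat.log 2 m) :
    |muOf m a b n K st w ∅ - 1| ≤ 3 / m ∧
    (∀ A, |muOf m a b n K st w A| ≤ 1) ∧
    (∀ c : Finset (Fin (n - w.length)) → ℝ, (∀ S, 2 * K < S.card → c S = 0) →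
      -(1 / (m : ℝ)) * ∑ S, c S ^ 2 ≤ ∑ S, ∑ T, c S * c T * muOf m a b n K st w (S ∪ T)) ∧
    (∀ Jt ∈ st, |((terms a b n K w Jt.1 Jt.2).map fun u => ((terms a b n K w Jt.1 Jt.2).map fun v =>
      (u.2 : ℝ) * v.2 * muOf m a b n K st w (mset u.1 ∪ mset v.1)).sum).sum| ≤ 3 * parTol m) := by
  have hzw : w.length + (List.ofFn z).length = n := by rw [List.length_ofFn]; omega
  obtain ⟨h1, h2, h3, h4⟩ := solOut_masks hzw hab hb hst hrow hK hm
  refine ⟨?_, fun A => h2 _, ?_, ?_⟩
  · rw [muOf_eq, maskF_empty]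
    exact h1
  · intro c hc
    have h := h3 (fun S => c (mset S))
    have e1 : ((masks (n - w.length) (2 * K)).map fun S =>
        (c (mset S : Finset (Fin (n - w.length)))) ^ 2).sum = ∑ S, c S ^ 2 :=
      sum_masks (fun A => c A ^ 2) (fun A hA => by rw [hc A hA]; ring)
    have e2 : ((masks (n - w.length) (2 * K)).map fun S => ((masks (n - w.length) (2 * K)).map fun T =>
          c (mset S) * c (mset T) * muL (n - w.length) (2 * (2 * K)) (solOf m a b n K st w)
            (orL S T)).sum).sum = ∑ S, ∑ T, c S * c T * muOf m a b n K st w (S ∪ T) := by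
      have e3 : ((masks (n - w.length) (2 * K)).map fun S => ((masks (n - w.length) (2 * K)).map fun T =>
          c (mset S) * c (mset T) * muL (n - w.length) (2 * (2 * K)) (solOf m a b n K st w)
            (orL S T)).sum).sum
          = ((masks (n - w.length) (2 * K)).map fun S =>
            (fun A : Finset (Fin (n - w.length)) => ∑ T, c A * c T * muOf m a b n K st w (A ∪ T))
              (mset S)).sum := by
        congr 1
        refine List.map_congr_left fun S hS => ?_
        have e4 := sum_masks (N := n - w.length) (d := 2 * K)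
          (fun T => c (mset S) * c T * muOf m a b n K st w (mset S ∪ T))
          (fun A hA => by rw [hc A hA]; ring)
        show _ = ∑ T, c (mset S) * c T * muOf m a b n K st w (mset S ∪ T)
        rw [← e4]
        congr 1
        refine List.map_congr_left fun T hT => ?_
        rw [muL_orL (mem_masks.1 hS).1 (mem_masks.1 hT).1, ← muOf_eq]
      rw [e3]
      exact sum_masks (fun A => ∑ T, c A * c T * muOf m a b n K st w (A ∪ T)) (fun A hA => by
        refine Finset.sum_eq_zero fun T _ => ?_
        rw [hc A hA]; ring)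
    rw [e1, e2] at h
    exact h
  · intro Jt hJt
    have h := h4 Jt hJt
    have e : ((terms a b n K w Jt.1 Jt.2).map fun u => ((terms a b n K w Jt.1 Jt.2).map fun v =>
        ((u.2 : ℝ) * v.2) * muL (n - w.length) (2 * (2 * K)) (solOf m a b n K st w)
          (orL u.1 v.1)).sum).sum
        = ((terms a b n K w Jt.1 Jt.2).map fun u => ((terms a b n K w Jt.1 Jt.2).map fun v =>
      (u.2 : ℝ) * v.2 * muOf m a b n K st w (mset u.1 ∪ mset v.1)).sum).sum := by
      congr 1
      refine List.map_congr_left fun u hu => ?_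
      congr 1
      refine List.map_congr_left fun v hv => ?_
      rw [muL_orL (terms_masks hw hu).1 (terms_masks hw hv).1, ← muOf_eq]
    rw [e] at h
    exact h

/-- **the output of the solver** -/
theorem solOut_full {m a b n K : ℕ} {st : List (List Bool × ℚ)} {w : List Bool}
    (hw : w.length ≤ n) (z : Fin (n - w.length) → Bool) (hab : a ≤ b) (hb : 0 < b)
    (hst : ∀ Jt ∈ st, Jt.1.length = n ∧ Jt.1.count true ≤ K ∧ 0 ≤ Jt.2 ∧ Jt.2 ≤ 1 ∧
      ((Jt.2 : ℝ) - eT ((a : ℝ) / (b : ℝ)) (w ++ List.ofFn z) Jt.1) ^ 2 ≤ parTol m)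
    (hK : (n + 1) ^ (64 * K) ≤ 2 ^ Nat.log 2 m) (hm : 10000 ≤ Nat.log 2 m) :
    |muOf m a b n K st w ∅ - 1| ≤ 3 / m ∧
    (∀ A, |muOf m a b n K st w A| ≤ 1) ∧
    (∀ c : Finset (Fin (n - w.length)) → ℝ, (∀ S, 2 * K < S.card → c S = 0) →
      -(1 / (m : ℝ)) * ∑ S, c S ^ 2 ≤ ∑ S, ∑ T, c S * c T * muOf m a b n K st w (S ∪ T)) ∧
    (∀ Jt ∈ st, |((terms a b n K w Jt.1 Jt.2).map fun u => ((terms a b n K w Jt.1 Jt.2).map fun v =>
      (u.2 : ℝ) * v.2 * muOf m a b n K st w (mset u.1 ∪ mset v.1)).sum).sum| ≤ 3 * parTol m) := by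
  refine solOut' hw z hab hb (fun Jt hJt => ⟨(hst Jt hJt).1, (hst Jt hJt).2.1,
    (hst Jt hJt).2.2.2.2⟩) (fun Jt hJt => ?_) hK hm
  obtain ⟨h1, _, h3, h4, _⟩ := hst Jt hJt
  refine (dotQ_rowOf_le _ _ _ _ (sum_abs_terms_le hab hb w Jt.1 h3 h4 h1)).trans ?_
  have := (pow_bounds hK hm).2.2
  exact_mod_cast this

/-- **the output of the solver** (helper846's P5b) -/
theorem solOut {m a b n K : ℕ} (hab : a ≤ b) (hb : 0 < b) {w : List Bool} (hw : w.length < n)
    (z : Fin (n - w.length) → Bool) (hpow : (n + 1) ^ (64 * K) ≤ 2 ^ Nat.log 2 m)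
    (hL : 10000 ≤ Nat.log 2 m) {st : List (List Bool × ℚ)}
    (hst : ∀ Jt ∈ st, Jt.1.length = n ∧ Jt.1.count true ≤ K ∧ 0 ≤ Jt.2 ∧ Jt.2 ≤ 1 ∧
      ((Jt.2 : ℝ) - eT ((a : ℝ) / b) (w ++ List.ofFn z) Jt.1) ^ 2 ≤ ((parTol m : ℚ) : ℝ)) :
    SolOut m a b n K st w := by
  obtain ⟨h1, _, h3, h4⟩ := solOut_full hw.le z hab hb hst hpow hL
  exact ⟨h1, h3, h4⟩

end Crest.Agent.R300.Dec
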