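import Crest.Agent.R300.Dec.Step
import Crest.Agent.R300.Dec.SolOut
import Crest.Agent.R300.Dec.Loop
import Crest.Agent.R300.Dec.Param
import Crest.Agent.R300.Dec.ProgPT

/-!
# Row 300, machine side: assembly of S0457
-/

set_option autoImplicit false
set_option linter.dupNamespace false

namespace Crest.Agent.R300.Dec

open Crest.Agent.R300U (TT PE Prefix Data Ident dev xv mono That UMainStatement)
open Crest.FinProb Crest.TraceRecon Crest.Randomized

/-- the statement about the solver -/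
def SolOutStatement : Prop :=
  ∀ (m a b n K : ℕ) (w : List Bool) (z : Fin (n - w.length) → Bool) (st : List (List Bool × ℚ)),
    a ≤ b → 0 < b → w.length < n → (n + 1) ^ (64 * K) ≤ 2 ^ Nat.log 2 m → 10000 ≤ Nat.log 2 m →
    (∀ Jt ∈ st, Jt.1.length = n ∧ Jt.1.count true ≤ K ∧ 0 ≤ Jt.2 ∧ Jt.2 ≤ 1 ∧
      ((Jt.2 : ℝ) - eT ((a : ℝ) / (b : ℝ)) (w ++ List.ofFn z) Jt.1) ^ 2 ≤ ((parTol m : ℚ) : ℝ)) →
    SolOut m a b n K st w

theorem solOutStatement : SolOutStatement := by
  intro m a b n K w z st hab hb hw hpow hL hst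
  exact solOut hab hb hw z hpow hL hst

theorem le_log_of_M0 {m : ℕ} (h : 2 ^ 10000 ≤ m) : 10000 ≤ Nat.log 2 m :=
  Nat.le_log_of_pow_le (by norm_num) h

theorem n_le_of_K {n m : ℕ} (hm : 1 ≤ m) (h : 1 ≤ Nat.log 2 m / (64 * Nat.size n)) : n ≤ m := by
  have h1 : 64 * Nat.size n ≤ Nat.log 2 m := by
    by_contra hcon
    rw [Nat.div_eq_of_lt (by omega)] at h
    omega
  have h2 : n < 2 ^ Nat.size n := Nat.lt_size_self n
  have h3 : 2 ^ Nat.size n ≤ 2 ^ Nat.log 2 m := Nat.pow_le_pow_right (by norm_num) (by omega)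
  have h4 : 2 ^ Nat.log 2 m ≤ m := Nat.pow_log_le_self 2 (by omega)
  omega

theorem cast_p {p : ℚ} (hp0 : 0 < p) : ((p.num.natAbs : ℕ) : ℝ) / ((p.den : ℕ) : ℝ) = (p : ℝ) := by
  have h1 : ((p.num.natAbs : ℕ) : ℤ) = p.num := Int.natAbs_of_nonneg (Rat.num_nonneg.2 hp0.le)
  have h2 : ((p.num.natAbs : ℕ) : ℝ) = ((p.num : ℤ) : ℝ) := by
    rw [← h1]; simp
  rw [h2]
  exact (Rat.cast_def p).symm

theorem natAbs_le_den {p : ℚ} (hp0 : 0 < p) (hp1 : p < 1) : p.num.natAbs ≤ p.den := by
  have h1 : ((p.num.natAbs : ℕ) : ℤ) = p.num := Int.natAbs_of_nonneg (Rat.num_nonneg.2 hp0.le)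
  have h2 : p.num < p.den := by
    rw [← Rat.num_lt_denom_iff] at hp1; exact hp1
  omega

theorem final_of (hU : UMainStatement) (hS : SolOutStatement) :
    ∃ C : ℝ, 1 ≤ C ∧ ∃ (A : List Bool × List Bool → List Bool) (r : Polynomial ℕ), RandPolyTime A ∧
      ∀ n : ℕ, 2 ≤ n → ∀ p : ℚ, 0 < p → p < 1 → ∀ x : Fin n → Bool,
        2 / 3 ≤ decoderSuccessProb (traceBudget C n p) p A r x := by
  refine R300U.decoder_of_correct hU 64 9 8 (2 ^ 10000) (by norm_num) (by norm_num) (by norm_num)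
    decA 0 randPolyTime_decA ?_
  intro n hn p hp0 hp1 m hM0 hm1 hK x τ _ hgood hId tape
  rw [Nat.log2_eq_log_two] at hK hId
  simp only [Nat.log2_eq_log_two] at hgood
  have hL := le_log_of_M0 hM0
  have hnm := n_le_of_K hm1 hK
  have hYs : (List.ofFn τ).length = m := List.length_ofFn
  have e1 : decA (decoderInput n p τ, tape) = decodeW p.num.natAbs p.den n (List.ofFn τ) := by
    unfold decA
    rw [parse_decoderInput p hp0.le τ]
  rw [e1, decodeW_eq_core (by rw [hYs]; exact hnm)]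
  have hab := natAbs_le_den hp0 hp1
  have hb : 0 < p.den := p.den_pos
  have hpc := cast_p hp0
  have hpow := pow_parK_le n m hm1
  have hKdef : Nat.log 2 m / (64 * Nat.size n) = parK n m := rfl
  rw [hKdef] at hK hId hgood
  have hstat : ∀ A : Finset ℕ, A.card ≤ parK n m → (∀ j ∈ A, j < n) →
      0 ≤ ((emp (maskOf n A) (List.ofFn τ) : ℚ) : ℝ) ∧
      ((emp (maskOf n A) (List.ofFn τ) : ℚ) : ℝ) ≤ 1 ∧
      |((emp (maskOf n A) (List.ofFn τ) : ℚ) : ℝ) -
        TT ((p.num.natAbs : ℝ) / (p.den : ℝ)) A x| ≤ (1 / 2 : ℝ) ^ (Nat.log 2 m / 8) := by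
    intro A hA1 hA2
    refine ⟨by exact_mod_cast emp_nonneg _ _, by exact_mod_cast emp_le_one _ _, ?_⟩
    rw [emp_eq_That hA2, hpc]
    exact hgood A hA1 hA2
  have hcore : decodeCore p.num.natAbs p.den n (List.ofFn τ) = List.ofFn x := by
    refine decodeCore_eq x fun t ht => ?_
    rw [hYs]
    have hw : ((List.ofFn x).take t).length = t := by
      rw [List.length_take, List.length_ofFn]; omega
    have hwx : ∀ i : Fin n, (i : ℕ) < ((List.ofFn x).take t).length →
        ((List.ofFn x).take t).getD i false = x i := by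
      intro i hi
      rw [List.getD_eq_getElem _ _ hi, List.getElem_take, List.getElem_ofFn]
    have hlt : ((List.ofFn x).take t).length < n := by rw [hw]; exact ht
    have hsplit : (List.ofFn x).take t ++ List.ofFn (fun i : Fin (n - ((List.ofFn x).take t).length) =>
        x ⟨((List.ofFn x).take t).length + i, by omega⟩) = List.ofFn x := by
      have h1 := ofFn_glue ((List.ofFn x).take t) hlt.le
        (fun i : Fin (n - ((List.ofFn x).take t).length) =>
          x ⟨((List.ofFn x).take t).length + i, by omega⟩)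
      rw [← h1]
      congr 1
      funext i
      unfold glue
      by_cases hi : (i : ℕ) < ((List.ofFn x).take t).length
      · rw [dif_pos hi, hwx i hi]
      · rw [dif_neg hi]
        refine congrArg x (Fin.ext ?_)
        show ((List.ofFn x).take t).length + ((i : ℕ) - ((List.ofFn x).take t).length) = i
        omega
    have hsol : SolOut m p.num.natAbs p.den n (parK n m) (statsOf n (parK n m) (List.ofFn τ))
        ((List.ofFn x).take t) := by
      refine hS m _ _ n _ _ (fun i => x ⟨((List.ofFn x).take t).length + i, by omega⟩) _ hab hb hlt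
        hpow hL ?_
      intro Jt hJt
      obtain ⟨h1, h2, h3, h4, h5, h6⟩ := mem_statsOf hJt
      refine ⟨h2, h3, h5, h6, ?_⟩
      obtain ⟨k1, k2, k3, k4⟩ := mask_eq_maskOf h1
      rw [hsplit, parTol_eq, h4, k1]
      have h7 := (hstat (setOf Jt.1) k3 k4).2.2
      rw [TT_eq _ k4] at h7
      have h8 : (0 : ℝ) ≤ (1 / 2 : ℝ) ^ (Nat.log 2 m / 8) := by positivity
      exact sq_le_sq' (by linarith [(abs_le.1 h7).1]) (abs_le.1 h7).2
    have key := nextBit_of_solOut (m := m) hab hb hK hpow hL x (List.ofFn τ) hstat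
      (by rw [hpc]; exact hId) ((List.ofFn x).take t) hwx hlt hsol
    rw [key]
    exact congrArg x (Fin.ext hw)
  rw [hcore, readWord_ofFn]

end Crest.Agent.R300.Dec
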