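import Crest.Agent.Lib.PT.ArithRat
import Crest.Agent.Lib.PT.ListFns2

/-!
# Row 300, machine side: bit masks of bounded weight

`masks n d` = list of all bit lists of length `n` with at most `d` entries `true`.
-/

set_option autoImplicit false
set_option linter.dupNamespace false

namespace Crest.Agent.R300.Dec

open Crest.Agent.Lib.PT

/-- one step: prepend a bit, keep the masks of weight `≤ d` -/
def mstep (d : ℕ) (l : List (List Bool)) : List (List Bool) :=
  (l.flatMap fun S => [false :: S, true :: S]).filter fun S => decide (S.count true ≤ d)

/-- all bit lists of length `n` with at most `d` entries `true` -/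
def masks (n d : ℕ) : List (List Bool) := (mstep d)^[n] [[]]

theorem masks_zero (d : ℕ) : masks 0 d = [[]] := rfl

theorem masks_succ (n d : ℕ) : masks (n + 1) d = mstep d (masks n d) :=
  Function.iterate_succ_apply' _ _ _

theorem mem_masks {n d : ℕ} {S : List Bool} :
    S ∈ masks n d ↔ S.length = n ∧ S.count true ≤ d := by
  induction n generalizing S with
  | zero =>
    rw [masks_zero]
    simp only [List.mem_singleton, List.length_eq_zero_iff]
    constructor
    · rintro rfl; simp
    · rintro ⟨h, _⟩; exact h
  | succ n ih =>
    rw [masks_succ]
    simp only [mstep, List.mem_filter, List.mem_flatMap, List.mem_cons, List.not_mem_nil,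
      or_false, decide_eq_true_eq]
    constructor
    · rintro ⟨⟨R, hR, rfl | rfl⟩, h⟩
      · exact ⟨by simp [(ih.1 hR).1], h⟩
      · exact ⟨by simp [(ih.1 hR).1], h⟩
    · rintro ⟨h1, h2⟩
      cases S with
      | nil => simp at h1
      | cons b S =>
        simp only [List.length_cons, add_left_inj] at h1
        have hc : S.count true ≤ (b :: S).count true := List.count_le_count_cons
        refine ⟨⟨S, ih.2 ⟨h1, hc.trans h2⟩, ?_⟩, h2⟩
        cases b
        · exact Or.inl rfl
        · exact Or.inr rfl

theorem nodup_masks (n d : ℕ) : (masks n d).Nodup := by
  induction n with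
  | zero => rw [masks_zero]; simp
  | succ n ih =>
    rw [masks_succ]
    refine List.Nodup.filter _ ?_
    rw [List.nodup_flatMap]
    refine ⟨fun S _ => by simp, ih.imp ?_⟩
    intro S R hSR
    simp only [Function.onFun, List.disjoint_cons_left, List.mem_cons, List.cons.injEq, true_and,
      false_and, List.not_mem_nil, or_false, false_or, List.disjoint_nil_left,
      and_true, Bool.false_eq_true, Bool.true_eq_false]
    exact ⟨hSR, hSR⟩

theorem filter_masks {n d d' : ℕ} (h : d' ≤ d) :
    (masks n d).filter (fun S => decide (S.count true ≤ d')) = masks n d' := by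
  induction n with
  | zero => rw [masks_zero, masks_zero]; simp
  | succ n ih =>
    rw [masks_succ, masks_succ, ← ih, mstep, mstep, List.filter_filter]
    generalize masks n d = l
    have e1 : (fun a : List Bool => decide (a.count true ≤ d') && decide (a.count true ≤ d)) =
        fun a => decide (a.count true ≤ d') := by
      funext a
      rw [← Bool.decide_and, decide_eq_decide]
      omega
    rw [e1]
    induction l with
    | nil => rfl
    | cons S l ihl =>
      by_cases hS : S.count true ≤ d'
      · have h0 : (S :: l).filter (fun S => decide (S.count true ≤ d')) =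
            S :: l.filter (fun S => decide (S.count true ≤ d')) :=
          List.filter_cons_of_pos (by simpa using hS)
        rw [h0, List.flatMap_cons, List.filter_append, List.flatMap_cons, List.filter_append, ihl]
      · have h1 : ([false :: S, true :: S].filter fun a => decide (a.count true ≤ d')) = [] := by
          rw [List.filter_eq_nil_iff]
          intro a ha
          have h2 : S.count true ≤ a.count true := by
            simp only [List.mem_cons, List.not_mem_nil, or_false] at ha
            rcases ha with rfl | rfl <;> exact List.count_le_count_cons
          simp only [decide_eq_true_eq]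
          omega
        have h0 : (S :: l).filter (fun S => decide (S.count true ≤ d')) =
            l.filter (fun S => decide (S.count true ≤ d')) :=
          List.filter_cons_of_neg (by simpa using hS)
        rw [h0, List.flatMap_cons, List.filter_append, h1, List.nil_append, ihl]

theorem length_masks_succ (n d : ℕ) :
    (masks (n + 1) d).length ≤ (masks n d).length +
      ((masks n d).filter (fun S => decide (S.count true + 1 ≤ d))).length := by
  rw [masks_succ, mstep]
  generalize masks n d = l
  induction l with
  | nil => simp
  | cons S l ih =>
    have h1 : ([false :: S, true :: S].filter fun a => decide (a.count true ≤ d)).length ≤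
        1 + (if S.count true + 1 ≤ d then 1 else 0) := by
      have h3 : (true :: S).count true = S.count true + 1 := List.count_cons_self
      rw [List.filter_cons, List.filter_cons]
      by_cases h2 : S.count true + 1 ≤ d
      · rw [if_pos h2]
        split_ifs <;> simp
      · rw [if_neg h2, h3, decide_eq_false h2]
        by_cases h4 : (false :: S).count true ≤ d
        · rw [if_pos (decide_eq_true h4), if_neg (by decide)]; simp
        · rw [if_neg (by rw [decide_eq_false h4]; decide), if_neg (by decide)]; simp
    have h0 : ((S :: l).flatMap fun S => [false :: S, true :: S]) =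
      [false :: S, true :: S] ++ l.flatMap fun S => [false :: S, true :: S] := rfl
    rw [h0, List.filter_append, List.length_append, List.length_cons (a := S)]
    by_cases h2 : S.count true + 1 ≤ d
    · have e : (S :: l).filter (fun S => decide (S.count true + 1 ≤ d)) =
          S :: l.filter (fun S => decide (S.count true + 1 ≤ d)) :=
        List.filter_cons_of_pos (decide_eq_true h2)
      rw [e, List.length_cons]
      rw [if_pos h2] at h1
      omega
    · have e : (S :: l).filter (fun S => decide (S.count true + 1 ≤ d)) =
          l.filter (fun S => decide (S.count true + 1 ≤ d)) :=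
        List.filter_cons_of_neg (by rw [decide_eq_false h2]; decide)
      rw [e]
      rw [if_neg h2] at h1
      omega

theorem length_masks_le (n d : ℕ) : (masks n d).length ≤ (n + 1) ^ d := by
  induction n generalizing d with
  | zero => rw [masks_zero]; simp
  | succ n ih =>
    refine (length_masks_succ n d).trans ?_
    cases d with
    | zero =>
      have : ((masks n 0).filter (fun S => decide (S.count true + 1 ≤ 0))) = [] := by
        rw [List.filter_eq_nil_iff]; intro a _; simp
      rw [this]
      simpa using ih 0
    | succ d =>
      have e : ((masks n (d + 1)).filter (fun S => decide (S.count true + 1 ≤ d + 1))) =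
          masks n d := by
        rw [← filter_masks (n := n) (Nat.le_succ d)]
        congr 1
        funext S
        simp
      rw [e]
      have h1 := ih (d + 1)
      have h2 := ih d
      have h3 : (n + 1) ^ (d + 1) + (n + 1) ^ d = (n + 2) * (n + 1) ^ d := by ring
      have h4 : (n + 2) * (n + 1) ^ d ≤ (n + 2) * (n + 2) ^ d :=
        Nat.mul_le_mul_left _ (Nat.pow_le_pow_left (by omega) _)
      have h5 : (n + 1 + 1) ^ (d + 1) = (n + 2) * (n + 2) ^ d := by ring
      omega

theorem masks_mono {n d d' : ℕ} (h : d ≤ d') {S : List Bool} (hS : S ∈ masks n d) :
    S ∈ masks n d' := by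
  rw [mem_masks] at *
  exact ⟨hS.1, hS.2.trans h⟩

section ptf
variable {γ : Type} [PTCode γ]

theorem ptu_count {S : γ → List Bool} (hS : PTF S) : PTU (fun c => (S c).count true) :=
  (PTU.countP (p := fun _ b => b) hS (by show PTF (fun q : γ × Bool => q.2); fun_prop)).of_eq
    (fun c => by
      rw [List.count]
      congr 1
      funext b; cases b <;> rfl)

theorem ptf_mstep {d : γ → ℕ} {l : γ → List (List Bool)} (hd : PTU d) (hl : PTF l) :
    PTF (fun c => mstep (d c) (l c)) := by
  unfold mstep
  refine PTF.filter (p := fun c S => decide (S.count true ≤ d c))
    (PTF.flatMap (f := fun _ S => [false :: S, true :: S]) hl ?_) ?_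
  · show PTF (fun q : γ × List Bool => [false :: q.2, true :: q.2])
    fun_prop
  · exact (PTU.le (ptu_count PTF.snd) (PTU.comp hd PTF.fst)).toPTF

theorem sz_masks_le (n d : ℕ) : sz (masks n d) ≤ (n + 1) ^ d * (2 * (3 * n) + 1) := by
  refine (sz_list_le (m := 3 * n) fun S hS => ?_).trans
    (Nat.mul_le_mul_right _ (length_masks_le n d))
  rw [sz_listBool, (mem_masks.1 hS).1]

/-- `masks n d` is polynomial time as soon as `(n + 1) ^ d` is polynomially bounded. -/
theorem ptf_masks {n d : γ → ℕ} (hn : PTU n) (hd : PTU d)
    (hB : PB (fun c => (n c + 1) ^ d c)) : PTF (fun c => masks (n c) (d c)) := by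
  have hn' : PB n := hn.pb
  refine PTF.iterate' (f := fun c l => mstep (d c) l) (a := fun _ => [[]]) hn
    (ptf_mstep (PTU.comp hd PTF.fst) PTF.snd) (PTF.const _)
    (B := fun c => (n c + 1) ^ d c * (2 * (3 * n c) + 1)) (by fun_prop) ?_
  intro c i hi
  refine (sz_masks_le i (d c)).trans ?_
  exact Nat.mul_le_mul (Nat.pow_le_pow_left (by omega) _) (by omega)

end ptf

end Crest.Agent.R300.Dec
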