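import Crest.Agent.R300.Dec.Row
import Crest.Agent.R300.Sdp

/-!
# Row 300, machine side: the decoder program (FROZEN definitions)

Input: retention `p = a / b`, word length `n`, traces `Ys` (`m = Ys.length`).
-/

set_option autoImplicit false
set_option linter.dupNamespace false

namespace Crest.Agent.R300.Dec

open Crest.Agent.Lib.PT

/-- empirical frequency of `hit J` -/
def emp (J : List Bool) (Ys : List (List Bool)) : ℚ :=
  ((Ys.countP fun y => hit J y : ℕ) : ℚ) / (Ys.length : ℚ)

/-- number of trace positions used -/
def parK (n m : ℕ) : ℕ := Nat.log 2 m / (64 * Nat.size n)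

/-- tolerance of the data constraints, `β²` with `β = 2 ^ (-(log₂ m / 8))` -/
def parTol (m : ℕ) : ℚ := 1 / 2 ^ (2 * (Nat.log 2 m / 8))

/-- row of the normalisation `L 1 = 1` -/
def unitRow (N d : ℕ) : List ℚ :=
  (masks N d).map fun R => if R = List.replicate N false then 1 else 0

/-- constraints of the feasibility problem when the prefix `w` is known; `st` is the list of masks
`J` (of weight `≤ K`, length `n`) with the empirical frequencies. -/
def consOf (m a b n K : ℕ) (st : List (List Bool × ℚ)) (w : List Bool) : List PCon :=
  (unitRow (n - w.length) (2 * (2 * K)), 1, 1 / (m : ℚ)) ::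
    st.map fun Jt => (rowOf (n - w.length) (2 * (2 * K)) (terms a b n K w Jt.1 Jt.2), 0, parTol m)

/-- the solution of the feasibility problem -/
def solOf (m a b n K : ℕ) (st : List (List Bool × ℚ)) (w : List Bool) : List ℚ :=
  sdpRun m (masks (n - w.length) (2 * (2 * K))).length (idxTab (n - w.length) (2 * K))
    (consOf m a b n K st w)

/-- the next letter: compare twice the moment of `{t}` with the moment of `∅` -/
def nextBit (m a b n K : ℕ) (st : List (List Bool × ℚ)) (w : List Bool) : Bool :=
  decide ((solOf m a b n K st w).getD
      (pos (masks (n - w.length) (2 * (2 * K))) (List.replicate (n - w.length) false)) 0 <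
    2 * (solOf m a b n K st w).getD
      (pos (masks (n - w.length) (2 * (2 * K))) (true :: List.replicate (n - w.length - 1) false)) 0)

/-- the statistics -/
def statsOf (n K : ℕ) (Ys : List (List Bool)) : List (List Bool × ℚ) :=
  (masks n K).map fun J => (J, emp J Ys)

/-- the decoder (for `n ≤ m`) -/
def decodeCore (a b n : ℕ) (Ys : List (List Bool)) : List Bool :=
  (fun w => w ++ [nextBit Ys.length a b n (parK n Ys.length) (statsOf n (parK n Ys.length) Ys) w])^[n]
    []

/-- the decoder -/
def decodeW (a b n : ℕ) (Ys : List (List Bool)) : List Bool :=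
  decodeCore a b (min n Ys.length) Ys

end Crest.Agent.R300.Dec
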