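import Crest.Agent.R300.Dec.Coef

/-!
# Row 300, machine side: dynamic program, terms, rows (definitions, correctness, `PTF`)
-/

set_option autoImplicit false
set_option linter.dupNamespace false

namespace Crest.Agent.R300.Dec

open Crest.Agent.Lib.PT

/-! ### dynamic program for `Ec` -/

/-- initial row -/
def dpInit (J : List Bool) : List ℕ :=
  (List.range (J.length + 1)).map fun i => if hit (J.drop (min i J.length)) [] = true then 1 else 0

/-- one step -/
def dpStep (a c : ℕ) (J : List Bool) (s : Bool) (r : List ℕ) : List ℕ :=
  List.zipWith (fun (j : Bool) (rr : ℕ × ℕ) =>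
    (if s = true then 0 else c * rr.1) + (if s = j then a * rr.2 else 0)) J (r.zip r.tail)

/-- the dynamic program -/
def EcDP (a c : ℕ) (S J : List Bool) : ℕ := (S.foldr (dpStep a c J) (dpInit J)).headD 0

theorem dp_spec (a c : ℕ) (J S : List Bool) (h : S.length ≤ J.length) :
    S.foldr (dpStep a c J) (dpInit J) =
      (List.range (J.length + 1 - S.length)).map fun i => Ec a c S (J.drop i) := by
  induction S with
  | nil =>
    rw [List.foldr_nil, List.length_nil, Nat.sub_zero, dpInit]
    refine List.map_congr_left fun i hi => ?_
    rw [List.mem_range] at hi
    rw [min_eq_left (by omega), Ec]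
  | cons s S ih =>
    rw [List.length_cons] at h
    rw [List.foldr_cons, ih (by omega), dpStep]
    refine List.ext_getElem ?_ fun i h1 h2 => ?_
    · simp only [List.length_zipWith, List.length_zip, List.length_map, List.length_range,
        List.length_tail, List.length_cons]
      omega
    · simp only [List.length_map, List.length_range, List.length_cons] at h2
      have hi : i < J.length := by omega
      rw [List.getElem_zipWith, List.getElem_zip]
      simp only [List.getElem_map, List.getElem_range, List.getElem_tail]
      rw [Ec]
      have e1 : (J.drop i).headD false = J[i] := by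
        rw [List.drop_eq_getElem_cons hi]; rfl
      have e2 : (J.drop i).tail = J.drop (i + 1) := by
        rw [List.drop_eq_getElem_cons hi]; rfl
      rw [e1, e2]

theorem EcDP_eq (a c : ℕ) {S J : List Bool} (h : S.length ≤ J.length) :
    EcDP a c S J = Ec a c S J := by
  unfold EcDP
  rw [dp_spec a c J S h]
  have : J.length + 1 - S.length = (J.length - S.length) + 1 := by omega
  rw [this, List.range_succ_eq_map, List.map_cons, List.headD_cons, List.drop_zero]

theorem Ec_le (a c : ℕ) (S J : List Bool) : Ec a c S J ≤ (a + c) ^ S.length := by
  induction S generalizing J with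
  | nil => rw [Ec]; split_ifs <;> simp
  | cons s S ih =>
    rw [Ec, List.length_cons, pow_succ]
    have h1 := ih J
    have h2 := ih J.tail
    split_ifs <;> nlinarith

/-! ### terms and rows -/

/-- union of masks -/
def orL (u v : List Bool) : List Bool := List.zipWith (fun a b => a || b) u v

/-- the polynomial `T_J - th` after the substitution of the known prefix `w`, as a list of
(mask of tail positions, coefficient) -/
def terms (a b n K : ℕ) (w J : List Bool) (th : ℚ) : List (List Bool × ℚ) :=
  (List.replicate (n - w.length) false, -th) ::
    ((masks n K).filter fun S => hit (S.take w.length) w).map fun S =>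
      (S.drop w.length, (EcDP a (b - a) S J : ℚ) / (b : ℚ) ^ n)

/-- the coefficients of the square of a polynomial -/
def rowOf (N d : ℕ) (P : List (List Bool × ℚ)) : List ℚ :=
  (masks N d).map fun R => (P.flatMap fun u =>
    (P.filter fun v => decide (orL u.1 v.1 = R)).map fun v => u.2 * v.2).sum

/-- position of the first occurrence -/
def pos (l : List (List Bool)) (a : List Bool) : ℕ :=
  (l.takeWhile fun b => decide (b ≠ a)).length

/-- index table of the moment matrix of degree `D` -/
def idxTab (N D : ℕ) : List (List ℕ) :=
  (masks N D).map fun S => (masks N D).map fun S' => pos (masks N (2 * D)) (orL S S')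

/-! ### evaluation -/

/-- evaluation of a polynomial given by terms -/
noncomputable def evalT (P : List (List Bool × ℚ)) (z : List Bool) : ℝ :=
  (P.map fun u => (u.2 : ℝ) * (if hit u.1 z = true then 1 else 0)).sum

theorem hit_append (S1 S2 w z : List Bool) (h : S1.length = w.length) :
    hit (S1 ++ S2) (w ++ z) = (hit S1 w && hit S2 z) := by
  induction S1 generalizing w with
  | nil =>
    have : w = [] := List.length_eq_zero_iff.1 h.symm
    subst this
    simp
  | cons s S ih =>
    cases w with
    | nil => simp at h
    | cons b w =>
      rw [List.cons_append, List.cons_append, hit_cons, hit_cons, List.headD_cons, List.tail_cons,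
        List.headD_cons, List.tail_cons, ih w (by simpa using h), Bool.and_assoc]

theorem hit_replicate_false (k : ℕ) (z : List Bool) : hit (List.replicate k false) z = true := by
  rw [hit_iff]
  intro i hi
  rw [List.getD_eq_getElem?_getD, List.getElem?_replicate] at hi
  split_ifs at hi <;> simp at hi

/-- the terms evaluate to the trace moment minus the threshold -/
theorem evalT_terms {a b n K : ℕ} (hab : a ≤ b) (hb : 0 < b) {w z J : List Bool} (th : ℚ)
    (hw : w.length + z.length = n) (hJ : J.length = n) (hJK : J.count true ≤ K) :
    evalT (terms a b n K w J th) z = eT ((a : ℝ) / (b : ℝ)) (w ++ z) J - th := by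
  have hb' : (b : ℝ) ≠ 0 := by positivity
  unfold evalT terms
  rw [List.map_cons, List.sum_cons, hit_replicate_false, if_pos rfl, List.map_map]
  have h1 : ((((masks n K).filter fun S => hit (S.take w.length) w).map
      ((fun u : List Bool × ℚ => (u.2 : ℝ) * (if hit u.1 z = true then 1 else 0)) ∘ fun S =>
      (S.drop w.length, (EcDP a (b - a) S J : ℚ) / (b : ℚ) ^ n))).sum) =
      ((masks n K).map fun S => (1 / (b : ℝ) ^ n) *
        ((Ec a (b - a) S J : ℝ) * (if hit S (w ++ z) = true then 1 else 0))).sum := by
    have hm : ∀ S ∈ masks n K, S.length = n := fun S hS => (mem_masks.1 hS).1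
    revert hm
    generalize masks n K = l
    intro hm
    induction l with
    | nil => rfl
    | cons S l ih =>
      have hS := hm S List.mem_cons_self
      have ih' := ih fun R hR => hm R (List.mem_cons_of_mem _ hR)
      have e : hit S (w ++ z) = (hit (S.take w.length) w && hit (S.drop w.length) z) := by
        rw [← hit_append _ _ _ _ (by rw [List.length_take]; omega), List.take_append_drop]
      rw [List.filter_cons, List.map_cons, List.sum_cons, ← ih']
      by_cases hh : hit (S.take w.length) w = true
      · rw [if_pos hh, List.map_cons, List.sum_cons]
        congr 1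
        simp only [Function.comp]
        rw [e, hh, Bool.true_and, EcDP_eq a (b - a) (by omega)]
        push_cast
        field_simp
      · rw [if_neg hh]
        rw [e]
        simp [hh]
  rw [h1, List.sum_map_mul_left]
  have hlen : (w ++ z).length = n := by rw [List.length_append]; exact hw
  have h2 := sum_Ec a (b - a) (by omega) K (w ++ z) J hJK
  have e1 : a + (b - a) = b := by omega
  rw [hlen, e1] at h2
  rw [h2]
  push_cast
  field_simp
  ring

theorem length_orL {u v : List Bool} {N : ℕ} (hu : u.length = N) (hv : v.length = N) :
    (orL u v).length = N := by
  unfold orL; rw [List.length_zipWith, hu, hv, min_self]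

theorem count_orL_le (u v : List Bool) : (orL u v).count true ≤ u.count true + v.count true := by
  unfold orL
  induction u generalizing v with
  | nil => simp
  | cons a u ih =>
    cases v with
    | nil => simp
    | cons b v =>
      rw [List.zipWith_cons_cons]
      have := ih v
      cases a <;> cases b <;> simp only [Bool.or_false, Bool.or_true, List.count_cons_self,
        List.count_cons_of_ne, ne_eq, Bool.false_eq_true, not_false_eq_true] <;> omega

theorem hit_orL {u v z : List Bool} (h : u.length = v.length) :
    hit (orL u v) z = (hit u z && hit v z) := by
  unfold orL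
  induction u generalizing v z with
  | nil =>
    have : v = [] := List.length_eq_zero_iff.1 h.symm
    subst this; rfl
  | cons a u ih =>
    cases v with
    | nil => simp at h
    | cons b v =>
      rw [List.zipWith_cons_cons, hit_cons, hit_cons, hit_cons, ih (by simpa using h)]
      cases a <;> cases b <;> cases z.headD false <;> cases hit u z.tail <;>
        cases hit v z.tail <;> rfl

theorem zipWith_diag {α β : Type} (f : α → α → β) (l : List α) :
    List.zipWith f l l = l.map fun a => f a a := by
  induction l with
  | nil => rfl
  | cons a l ih => rw [List.zipWith_cons_cons, ih, List.map_cons]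

/-- the row of the square, tested against an arbitrary function of masks -/
theorem sum_rowOf {N d : ℕ} {P : List (List Bool × ℚ)}
    (hP : ∀ u ∈ P, ∀ v ∈ P, orL u.1 v.1 ∈ masks N d) (μ : List Bool → ℝ) :
    (List.zipWith (fun (r : ℚ) (R : List Bool) => (r : ℝ) * μ R) (rowOf N d P) (masks N d)).sum =
      (P.map fun u => (P.map fun v => ((u.2 : ℝ) * v.2) * μ (orL u.1 v.1)).sum).sum := by
  unfold rowOf
  rw [List.zipWith_map_left, zipWith_diag]
  have key : ∀ (Q : List (ℚ × List Bool)), (∀ q ∈ Q, q.2 ∈ masks N d) →
      ((masks N d).map fun R => ((((Q.filter fun v => decide (v.2 = R)).map fun v => v.1).sum : ℚ) : ℝ)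
        * μ R).sum = (Q.map fun q => (q.1 : ℝ) * μ q.2).sum := by
    intro Q
    induction Q with
    | nil => intro _; simp
    | cons q Q ih =>
      intro hQ
      have ih' := ih fun q hq => hQ q (List.mem_cons_of_mem _ hq)
      rw [List.map_cons, List.sum_cons, ← ih']
      have hq := hQ q List.mem_cons_self
      have hnd := nodup_masks N d
      have h1 : ∀ R, (((((q :: Q).filter fun v => decide (v.2 = R)).map fun v => v.1).sum : ℚ) : ℝ)
          * μ R = (if q.2 = R then (q.1 : ℝ) * μ q.2 else 0) +
            ((((Q.filter fun v => decide (v.2 = R)).map fun v => v.1).sum : ℚ) : ℝ) * μ R := by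
        intro R
        rw [List.filter_cons]
        by_cases h : q.2 = R
        · rw [if_pos (decide_eq_true h), if_pos h, List.map_cons, List.sum_cons, ← h]
          push_cast
          ring
        · rw [if_neg (by simpa using h), if_neg h, zero_add]
      rw [List.map_congr_left (fun R _ => h1 R), List.sum_map_add]
      congr 1
      revert hq hnd
      generalize masks N d = l
      intro hq hnd
      induction l with
      | nil => simp at hq
      | cons R l ihl =>
        rw [List.map_cons, List.sum_cons]
        rw [List.nodup_cons] at hnd
        by_cases h : q.2 = R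
        · rw [if_pos h]
          have : (l.map fun R => if q.2 = R then (q.1 : ℝ) * μ q.2 else 0).sum = 0 := by
            apply List.sum_eq_zero
            intro x hx
            rw [List.mem_map] at hx
            obtain ⟨R', hR', rfl⟩ := hx
            rw [if_neg]
            rintro rfl
            exact hnd.1 (h ▸ hR')
          rw [this, add_zero]
        · rw [if_neg h, zero_add]
          refine ihl ?_ hnd.2
          rcases List.mem_cons.1 hq with h' | h'
          · exact absurd h' h
          · exact h'
  have h2 := key (P.flatMap fun u => P.map fun v => (u.2 * v.2, orL u.1 v.1)) (by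
    intro q hq
    rw [List.mem_flatMap] at hq
    obtain ⟨u, hu, hq⟩ := hq
    rw [List.mem_map] at hq
    obtain ⟨v, hv, rfl⟩ := hq
    exact hP u hu v hv)
  have h3 : ∀ R : List Bool, (P.flatMap fun u => (P.filter fun v => decide (orL u.1 v.1 = R)).map
      fun v => u.2 * v.2) = (((P.flatMap fun u => P.map fun v => (u.2 * v.2, orL u.1 v.1)).filter
        fun v => decide (v.2 = R)).map fun v => v.1) := by
    intro R
    rw [List.filter_flatMap, List.map_flatMap]
    congr 1
    funext u
    rw [List.filter_map, List.map_map]
    rfl
  rw [List.map_congr_left (fun R _ => by rw [h3 R]), h2, List.map_flatMap, List.flatMap_def,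
    List.sum_flatten, List.map_map]
  congr 1
  refine List.map_congr_left fun u _ => ?_
  simp only [Function.comp_apply]
  rw [List.map_map]
  congr 1
  refine List.map_congr_left fun v _ => ?_
  simp only [Function.comp]
  push_cast
  ring

theorem length_rowOf (N d : ℕ) (P : List (List Bool × ℚ)) :
    (rowOf N d P).length = (masks N d).length := by
  unfold rowOf; rw [List.length_map]

theorem pos_lt {l : List (List Bool)} {a : List Bool} (h : a ∈ l) : pos l a < l.length := by
  unfold pos
  induction l with
  | nil => simp at h
  | cons b l ih =>
    rw [List.takeWhile_cons]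
    by_cases hb : b = a
    · simp [hb]
    · rw [if_pos (decide_eq_true hb), List.length_cons, List.length_cons]
      have := ih ((List.mem_cons.1 h).resolve_left fun e => hb e.symm)
      omega

theorem getD_pos {l : List (List Bool)} {a : List Bool} (h : a ∈ l) : l.getD (pos l a) [] = a := by
  unfold pos
  induction l with
  | nil => simp at h
  | cons b l ih =>
    rw [List.takeWhile_cons]
    by_cases hb : b = a
    · simp [hb]
    · rw [if_pos (decide_eq_true hb), List.length_cons, List.getD_cons_succ]
      exact ih ((List.mem_cons.1 h).resolve_left fun e => hb e.symm)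

end Crest.Agent.R300.Dec
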